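import Vale.Agent.P145.Top.Cone
import Vale.Agent.P145.Dom.Zb
import Vale.Agent.P145.PT.Mom

/-!
P145, block F-TOP: the interface between the lattice blocks and the identification of the limit.
-/

namespace Vale.Agent.P145.Top

open Filter Topology Set MeasureTheory
open Vale.Agent.P145.PT Vale.Agent.P145.FP Vale.Agent.P145.Dom

/-- The closed square of mesh `δ` with bottom-left corner `δ f`. -/
def sq (δ : ℝ) (f : ℤ × ℤ) : Set (ℝ × ℝ) :=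
  {z | δ * f.1 ≤ z.1 ∧ z.1 ≤ δ * (f.1 + 1) ∧ δ * f.2 ≤ z.2 ∧ z.2 ≤ δ * (f.2 + 1)}

open Classical in
/-- The faces of `δ ℤ²` contained in `D` (for bounded `D` and `0 < δ`). -/
noncomputable def Fs (δ : ℝ) (D : Set (ℝ × ℝ)) : Finset (ℤ × ℤ) :=
  if h : {f : ℤ × ℤ | sq δ f ⊆ D}.Finite then h.toFinset else ∅

/-- `δ² ∑_v ω(v) f(δ v)`, for `f` of compact support. -/
noncomputable def hv (δ : ℝ) (f : ℝ × ℝ → ℝ) (ω : Om) : ℝ :=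
  δ ^ 2 * ∑ᶠ v : ℤ × ℤ, ω v * f (δ * v.1, δ * v.2)

/-- Product over a list of test functions. -/
noncomputable def hvl (δ : ℝ) (l : List (ℝ × ℝ → ℝ)) (ω : Om) : ℝ :=
  (l.map fun f => hv δ f ω).prod

/-- The heights `h / 2` at the vertices. -/
noncomputable def vh (x : Site → ℤ) : Om := fun v => (x (Sum.inl v) : ℝ) / 2

/-- Expectation in the lattice version of the domain `D`. -/
noncomputable def EE (c δ : ℝ) (D : Set (ℝ × ℝ)) (A : Om → ℝ) : ℝ :=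
  ze c (Fs δ D) fun x => A (vh x)

/-- The open cell `a < x + y < b`, `a' < x - y < b'`. -/
def cell (a b a' b' : ℝ) : Set (ℝ × ℝ) :=
  {z | a < z.1 + z.2 ∧ z.1 + z.2 < b ∧ a' < z.1 - z.2 ∧ z.1 - z.2 < b'}

/-- The closed cell. -/
def ccell (a b a' b' : ℝ) : Set (ℝ × ℝ) :=
  {z | a ≤ z.1 + z.2 ∧ z.1 + z.2 ≤ b ∧ a' ≤ z.1 - z.2 ∧ z.1 - z.2 ≤ b'}

/-- Exterior squares: the complement of `D` is a union of closed axis-parallel squares of a fixed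
size (balls of the sup norm). -/
def ThickC (D : Set (ℝ × ℝ)) : Prop :=
  ∃ g : ℝ, 0 < g ∧ ∀ x ∉ D, ∃ y : ℝ × ℝ, x ∈ Metric.closedBall y g ∧
    Disjoint (Metric.closedBall y g) D

/-- MONO: the moments of the vertex heights are nonnegative and increasing in the set of faces,
and the heights are centred. -/
def S_mono (c : ℝ) : Prop := ∀ F F' : Finset (ℤ × ℤ), F ⊆ F' → ∀ v : List (ℤ × ℤ),
  0 ≤ ze c F (fun x => (v.map (vh x)).prod) ∧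
  ze c F (fun x => (v.map (vh x)).prod) ≤ ze c F' (fun x => (v.map (vh x)).prod) ∧
  ∀ u : ℤ × ℤ, ze c F (fun x => vh x u) = 0

/-- MB: the moments are bounded. -/
def S_mb (c : ℝ) (δ : ℕ → ℝ) : Prop := ∀ D : Set (ℝ × ℝ), IsOpen D → Bornology.IsBounded D →
  ∀ f : ℝ × ℝ → ℝ, TestOn univ f → (∀ z, 0 ≤ f z) → ∀ k : ℕ,
    ∃ C : ℝ, ∀ᶠ n in atTop, EE c (δ n) D (fun ω => hv (δ n) f ω ^ k) ≤ C

/-- L2B: the second moments are bounded in `L²`. -/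
def S_l2 (c : ℝ) (δ : ℕ → ℝ) : Prop := ∀ R : ℝ, 0 < R → ∃ C : ℝ, 0 ≤ C ∧
  ∀ D : Set (ℝ × ℝ), IsOpen D → D ⊆ Metric.ball 0 R →
  ∀ f : ℝ × ℝ → ℝ, TestOn (Metric.ball 0 R) f → (∀ z, 0 ≤ f z) → ∀ ε : ℝ, 0 < ε →
    ∀ᶠ n in atTop, EE c (δ n) D (fun ω => hv (δ n) f ω ^ 2) ≤ C * (∫ z, f z ^ 2) + ε

/-- DEC': decay at the boundary, for domains with exterior squares. -/
def S_dec (c : ℝ) (δ : ℕ → ℝ) : Prop := ∀ D : Set (ℝ × ℝ), IsOpen D → Bornology.IsBounded D →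
  ThickC D → ∀ f : ℝ × ℝ → ℝ, TestOn D f → (∀ z, 0 ≤ f z) → ∀ (k : ℕ) (ε : ℝ), 0 < ε →
    ∃ r : ℝ, 0 < r ∧ ∀ x ∈ D, dd D x < r → ∀ᶠ n in atTop,
      EE c (δ n) D (fun ω => hv (δ n) (bump (dd D x / 2) x) ω * hv (δ n) f ω ^ k) ≤ ε

/-- XST: the measures `ν n` with the sandwich and the Schwinger-Dyson equation, up to an error `η`
and for finitely many test functions. -/
def S_xst (c κ : ℝ) (δ : ℕ → ℝ) : Prop := ∀ D₁ D₂ : Set (ℝ × ℝ), IsOpen D₁ → IsOpen D₂ →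
  Bornology.IsBounded D₂ → closure D₁ ⊆ D₂ → ∀ a b a' b' : ℝ, a < b → a' < b' →
  ccell a b a' b' ⊆ D₁ → ∀ (ψ f : ℝ × ℝ → ℝ) (k : ℕ), TestOn (cell a b a' b') ψ → TestOn D₁ f →
  (∀ z, 0 ≤ f z) → ∀ L : List (List (ℝ × ℝ → ℝ)),
  (∀ l ∈ L, ∀ g ∈ l, TestOn D₁ g ∧ ∀ z, 0 ≤ g z) → ∀ η : ℝ, 0 < η →
    ∃ ν : ℕ → Measure Om, (∀ᶠ n in atTop, Mom (ν n)) ∧
    (∀ l ∈ L, ∀ᶠ n in atTop,
      EE c (δ n) D₁ (hvl (δ n) l) ≤ (∫ ω, hvl (δ n) l ω ∂(ν n)) + η ∧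
      ∫ ω, hvl (δ n) l ω ∂(ν n) ≤ EE c (δ n) D₂ (hvl (δ n) l) + η) ∧
    ∀ᶠ n in atTop, |(∫ ω, hv (δ n) (lap ψ) ω * hv (δ n) f ω ^ (k + 1) ∂(ν n)) +
        κ * (k + 1) * (∫ z, ψ z * f z) * ∫ ω, hv (δ n) f ω ^ k ∂(ν n)| ≤ η

/-- All inputs. -/
structure Inputs (c κ : ℝ) (δ : ℕ → ℝ) : Prop where
  cpos : 0 < c
  κpos : 0 < κ
  δpos : ∀ n, 0 < δ n
  δlim : Tendsto δ atTop (𝓝 0)
  mono : S_mono c
  mb : S_mb c δ
  l2 : S_l2 c δ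
  dec : S_dec c δ
  xst : S_xst c κ δ

/-- A strictly nested family of domains. -/
structure Nest (a b : ℝ) (D : ℝ → Set (ℝ × ℝ)) : Prop where
  lt : a < b
  op : ∀ s ∈ Ioo a b, IsOpen (D s)
  bdd : ∀ s ∈ Ioo a b, Bornology.IsBounded (D s)
  thick : ∀ s ∈ Ioo a b, ThickC (D s)
  nest : ∀ s ∈ Ioo a b, ∀ t ∈ Ioo a b, s < t → closure (D s) ⊆ D t
  exh : ∀ s ∈ Ioo a b, ∀ K ⊆ D s, IsCompact K → ∃ t ∈ Ioo a b, t < s ∧ K ⊆ D t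

/-- The output of this block: along every ultrafilter, for some parameter of every nested family,
all moments of nonnegative test functions converge to the moments of the Gaussian free field. -/
def S_key (c κ : ℝ) (δ : ℕ → ℝ) : Prop := ∀ (a b : ℝ) (D : ℝ → Set (ℝ × ℝ)), Nest a b D →
  (∃ R : ℝ, ∀ s ∈ Ioo a b, D s ⊆ Metric.ball 0 R) →
  ∀ U : Ultrafilter ℕ, (U : Filter ℕ) ≤ atTop → ∃ s ∈ Ioo a b,
    ∀ f : ℝ × ℝ → ℝ, TestOn (D s) f → (∀ z, 0 ≤ f z) → ∀ k : ℕ,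
      Tendsto (fun n => EE c (δ n) (D s) (fun ω => hv (δ n) f ω ^ k)) U
        (𝓝 (gm (κ * V (D s) f) k))

end Vale.Agent.P145.Top
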