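import Vale.Agent.P145.Top.Final
import Vale.Agent.P145.Dom.GeoB

/-!
The outer inclusion.
-/

namespace Vale.Agent.P145.Top

open Filter Topology Set MeasureTheory ProbabilityTheory
open Vale.Agent.P145.PT Vale.Agent.P145.FP Vale.Agent.P145.Dom

theorem s_out : S_out := by
  intro D hJ δ N p F h D' hD' hb hcl
  obtain ⟨Φ, rfl⟩ := JordanDomain.exists hJ
  filter_upwards [approx_outer Φ h hD' hcl] with n hn f hf
  rw [mem_Fs (h.pos n) hb]
  exact fun z hz => hn f hf ⟨⟨hz.1, hz.2.1⟩, hz.2.2⟩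

end Vale.Agent.P145.Top
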