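import Vale.Agent.P145.Top.Cone

/-!
Consequences of positivity and monotonicity of the moments.
-/

namespace Vale.Agent.P145.Top

open MeasureTheory

/-- Nonnegative moments. -/
structure Pos (μ : Measure Om) : Prop where
  mom : Mom μ
  pos : ∀ v : List (ℤ × ℤ), 0 ≤ ∫ ω, (v.map ω).prod ∂μ

variable {B : Finset (ℤ × ℤ)} {δ : ℝ}

theorem Pos.hl_nonneg {μ : Measure Om} (h : Pos μ) {l : List (ℝ × ℝ → ℝ)}
    (hl0 : ∀ f ∈ l, ∀ z, 0 ≤ f z) : 0 ≤ ∫ ω, hl B δ l ω ∂μ :=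
  h.mom.nonneg h.pos (cone_hl l hl0)

theorem Pos.pow_nonneg {μ : Measure Om} (h : Pos μ) {f : ℝ × ℝ → ℝ}
    (hf : ∀ z, 0 ≤ f z) (k : ℕ) : 0 ≤ ∫ ω, hB B δ f ω ^ k ∂μ :=
  h.mom.nonneg h.pos (cone_pow hf k)

theorem Pos.hl_le {μ : Measure Om} (h : Pos μ) {f0 : ℝ × ℝ → ℝ} (h0 : ∀ z, 0 ≤ f0 z) {C : ℝ}
    (hC : 0 ≤ C) (l : List (ℝ × ℝ → ℝ)) (hd : ∀ f ∈ l, ∀ z, 0 ≤ f z ∧ f z ≤ C * f0 z) :
    ∫ ω, hl B δ l ω ∂μ ≤ C ^ l.length * ∫ ω, hB B δ f0 ω ^ l.length ∂μ := by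
  have h1 := h.mom.nonneg h.pos (cone_dom (B := B) (δ := δ) h0 hC l hd)
  rw [integral_sub ((h.mom.integrable (cone_pow h0 _)).const_mul _)
    (h.mom.integrable (alg_hl l)), integral_const_mul] at h1
  linarith

theorem dom_diff {μ ν : Measure Om} (hμ : Mom μ) (hν : Mom ν)
    (hm : ∀ v : List (ℤ × ℤ), ∫ ω, (v.map ω).prod ∂μ ≤ ∫ ω, (v.map ω).prod ∂ν)
    {f0 : ℝ × ℝ → ℝ} (h0 : ∀ z, 0 ≤ f0 z) {C : ℝ}
    (hC : 0 ≤ C) (l : List (ℝ × ℝ → ℝ)) (hd : ∀ f ∈ l, ∀ z, 0 ≤ f z ∧ f z ≤ C * f0 z) :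
    (∫ ω, hl B δ l ω ∂ν) - ∫ ω, hl B δ l ω ∂μ ≤
      C ^ l.length * ((∫ ω, hB B δ f0 ω ^ l.length ∂ν) - ∫ ω, hB B δ f0 ω ^ l.length ∂μ) := by
  have h1 := Mom.mono hμ hν hm (cone_dom (B := B) (δ := δ) h0 hC l hd)
  rw [integral_sub ((hμ.integrable (cone_pow h0 _)).const_mul _)
    (hμ.integrable (alg_hl l)), integral_const_mul,
    integral_sub ((hν.integrable (cone_pow h0 _)).const_mul _)
    (hν.integrable (alg_hl l)), integral_const_mul] at h1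
  linarith

theorem hl_mono {μ ν : Measure Om} (hμ : Mom μ) (hν : Mom ν)
    (hm : ∀ v : List (ℤ × ℤ), ∫ ω, (v.map ω).prod ∂μ ≤ ∫ ω, (v.map ω).prod ∂ν)
    (l : List (ℝ × ℝ → ℝ)) (hd : ∀ f ∈ l, ∀ z, 0 ≤ f z) :
    ∫ ω, hl B δ l ω ∂μ ≤ ∫ ω, hl B δ l ω ∂ν := Mom.mono hμ hν hm (cone_hl l hd)

theorem pow_mono' {μ ν : Measure Om} (hμ : Mom μ) (hν : Mom ν)
    (hm : ∀ v : List (ℤ × ℤ), ∫ ω, (v.map ω).prod ∂μ ≤ ∫ ω, (v.map ω).prod ∂ν)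
    {f0 : ℝ × ℝ → ℝ} (h0 : ∀ z, 0 ≤ f0 z) (k : ℕ) :
    ∫ ω, hB B δ f0 ω ^ k ∂μ ≤ ∫ ω, hB B δ f0 ω ^ k ∂ν := Mom.mono hμ hν hm (cone_pow h0 k)

/-- Second moments of signed functions. -/
theorem Pos.sq_le {μ : Measure Om} (h : Pos μ) {g G : ℝ × ℝ → ℝ} (hg : ∀ z, |g z| ≤ G z) :
    ∫ ω, hB B δ g ω ^ 2 ∂μ ≤ ∫ ω, hB B δ G ω ^ 2 ∂μ := by
  have h1 : Cone (hB B δ fun z => G z + g z) :=
    (Cone.hB (B := B) (δ := δ) (g := fun _ => 1) Pol.one (f := fun z => G z + g z)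
      fun z => by linarith [neg_abs_le (g z), hg z]).of_eq fun ω => by ring
  have h2 := Cone.hB (B := B) (δ := δ) h1 (f := fun z => G z - g z)
    fun z => by linarith [le_abs_self (g z), hg z]
  have h3 := h.mom.nonneg h.pos h2
  have h4 : ∀ ω, hB B δ (fun z => G z - g z) ω * hB B δ (fun z => G z + g z) ω =
      hB B δ G ω ^ 2 - hB B δ g ω ^ 2 := fun ω => by rw [hB_sub, hB_add]; ring
  simp_rw [h4] at h3
  rw [integral_sub (h.mom.integrable (alg_hB.pow 2)) (h.mom.integrable (alg_hB.pow 2))] at h3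
  linarith

/-- Mixed moments of a signed function. -/
theorem Pos.mixed_sq_le {μ : Measure Om} (h : Pos μ) (g f : ℝ × ℝ → ℝ) (k : ℕ) :
    (∫ ω, hB B δ g ω * hB B δ f ω ^ k ∂μ) ^ 2 ≤
      (∫ ω, hB B δ g ω ^ 2 ∂μ) * ∫ ω, hB B δ f ω ^ (2 * k) ∂μ := by
  have := h.mom.cs (alg_hB (B := B) (δ := δ) (f := g)) (alg_hB (B := B) (δ := δ) (f := f) |>.pow k)
  have e : ∀ ω, (hB B δ f ω ^ k) ^ 2 = hB B δ f ω ^ (2 * k) := fun ω => by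
    rw [← pow_mul, mul_comm]
  simp_rw [e] at this
  exact this

theorem hl_cons (f : ℝ × ℝ → ℝ) (l : List (ℝ × ℝ → ℝ)) (ω : Om) :
    hl B δ (f :: l) ω = hB B δ f ω * hl B δ l ω := by simp [hl]

theorem hl_replicate (f : ℝ × ℝ → ℝ) (k : ℕ) (ω : Om) :
    hl B δ (List.replicate k f) ω = hB B δ f ω ^ k := by simp [hl]

end Vale.Agent.P145.Top
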