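import Vale.Agent.P145.Top.Stmt
import Vale.Agent.P145.Dom.BridgeC

/-!
P145, block F-TOP: the zero boundary law as a measure on the vertex heights; faces inside a set;
finite sums.
-/

namespace Vale.Agent.P145.Top

open Filter Topology Set MeasureTheory
open Vale.Agent.P145.PT Vale.Agent.P145.FP Vale.Agent.P145.Dom

theorem zw_pos {c : ℝ} (hc : 0 < c) (F : Finset (ℤ × ℤ)) (x : Site → ℤ) : 0 < zw c F x := by
  unfold zw
  refine mul_pos (Finset.prod_pos fun e _ => ?_) (Finset.prod_pos fun e _ => ?_)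
  · split_ifs
    · exact hc
    · exact one_pos
  · split_ifs
    · exact hc
    · exact one_pos

theorem ZH_nonempty (F : Finset (ℤ × ℤ)) : (ZH F).Nonempty := by
  classical
  refine ⟨Sum.elim (fun _ => 0) (fun f => if f ∈ F then 1 else 0), ?_⟩
  rw [mem_ZH]
  refine ⟨fun v => by simp, fun f hf => by simp [hf], fun v f _ => ⟨fun _ => by simp, fun hf => by simp [hf]⟩⟩

theorem zs_eq (c : ℝ) (F : Finset (ℤ × ℤ)) (Φ : (Site → ℤ) → ℝ) :
    zs c F Φ = ∑ x ∈ (ZH_finite F).toFinset, zw c F x * Φ x := by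
  unfold zs
  rw [finsum_mem_eq_finite_toFinset_sum _ (ZH_finite F)]

theorem zs_pos' {c : ℝ} (hc : 0 < c) (F : Finset (ℤ × ℤ)) : 0 < zs c F (fun _ => 1) := by
  rw [zs_eq]
  refine Finset.sum_pos (fun x _ => by rw [mul_one]; exact zw_pos hc F x) ?_
  obtain ⟨x, hx⟩ := ZH_nonempty F
  exact ⟨x, by rw [Set.Finite.mem_toFinset]; exact hx⟩

theorem exists_meas {c : ℝ} (hc : 0 < c) (F : Finset (ℤ × ℤ)) :
    ∃ μ : Measure Om, Mom μ ∧ ∀ A : Om → ℝ, ∫ ω, A ω ∂μ = ze c F (fun x => A (vh x)) := by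
  classical
  have hZ := zs_pos' hc F
  set Z : ℝ := zs c F (fun _ => 1) with hZd
  set T := (ZH_finite F).toFinset with hT
  have hw : ∀ x, 0 ≤ zw c F x / Z := fun x => div_nonneg (zw_pos hc F x).le hZ.le
  have hint : ∀ (A : Om → ℝ) (x : Site → ℤ), Integrable A (ENNReal.ofReal (zw c F x / Z) • Measure.dirac (vh x)) :=
    fun A x => (integrable_dirac (by simp)).smul_measure ENNReal.ofReal_ne_top
  refine ⟨∑ x ∈ T, ENNReal.ofReal (zw c F x / Z) • Measure.dirac (vh x), ⟨⟨?_⟩, ?_⟩, ?_⟩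
  · rw [Measure.coe_finsetSum, Finset.sum_apply]
    simp only [Measure.smul_apply, measure_univ, smul_eq_mul, mul_one]
    rw [← ENNReal.ofReal_sum_of_nonneg (fun x _ => hw x), ← Finset.sum_div]
    have : ∑ x ∈ T, zw c F x = Z := by
      rw [hZd, zs_eq]
      exact Finset.sum_congr rfl fun x _ => (mul_one _).symm
    rw [this, div_self hZ.ne', ENNReal.ofReal_one]
  · intro v
    exact integrable_finsetSum_measure.2 fun x _ => hint _ x
  · intro A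
    rw [integral_finsetSum_measure fun x _ => hint A x]
    have h1 : ∀ x ∈ T, ∫ ω, A ω ∂(ENNReal.ofReal (zw c F x / Z) • Measure.dirac (vh x)) =
        zw c F x * A (vh x) / Z := by
      intro x _
      rw [integral_smul_measure, integral_dirac, ENNReal.toReal_ofReal (hw x), smul_eq_mul]
      ring
    rw [Finset.sum_congr rfl h1, ← Finset.sum_div]
    unfold ze
    rw [zs_eq c F (fun x => A (vh x)), hT, hZd]

theorem lat_finite {δ : ℝ} (hδ : 0 < δ) (R : ℝ) :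
    {v : ℤ × ℤ | ((δ * v.1, δ * v.2) : ℝ × ℝ) ∈ Metric.ball (0 : ℝ × ℝ) R}.Finite := by
  refine (Set.finite_Icc ((-⌈R / δ⌉, -⌈R / δ⌉) : ℤ × ℤ) (⌈R / δ⌉, ⌈R / δ⌉)).subset ?_
  intro v hv
  have hv' : max |δ * (v.1 : ℝ)| |δ * (v.2 : ℝ)| < R := by
    have := mem_ball_zero_iff.1 hv
    rwa [Prod.norm_mk, Real.norm_eq_abs, Real.norm_eq_abs] at this
  have key : ∀ a : ℤ, |δ * (a : ℝ)| < R → -⌈R / δ⌉ ≤ a ∧ a ≤ ⌈R / δ⌉ := by
    intro a ha
    rw [abs_mul, abs_of_pos hδ] at ha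
    have h1 : |(a : ℝ)| < R / δ := by
      rw [lt_div_iff₀ hδ]
      linarith
    have h2 : |(a : ℝ)| ≤ (⌈R / δ⌉ : ℝ) := h1.le.trans (Int.le_ceil _)
    have h3 : |a| ≤ ⌈R / δ⌉ := by exact_mod_cast h2
    exact abs_le.1 h3
  obtain ⟨a1, a2⟩ := key v.1 ((le_max_left _ _).trans_lt hv')
  obtain ⟨b1, b2⟩ := key v.2 ((le_max_right _ _).trans_lt hv')
  exact ⟨⟨a1, b1⟩, ⟨a2, b2⟩⟩

theorem Fs_finite {δ : ℝ} (hδ : 0 < δ) {D : Set (ℝ × ℝ)} (hb : Bornology.IsBounded D) :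
    {f : ℤ × ℤ | sq δ f ⊆ D}.Finite := by
  obtain ⟨R, hR⟩ := hb.subset_ball (0 : ℝ × ℝ)
  refine (lat_finite hδ R).subset fun f hf => hR (hf ?_)
  refine ⟨le_rfl, ?_, le_rfl, ?_⟩ <;> simp only <;> nlinarith

theorem mem_Fs {δ : ℝ} (hδ : 0 < δ) {D : Set (ℝ × ℝ)} (hb : Bornology.IsBounded D) {f : ℤ × ℤ} :
    f ∈ Fs δ D ↔ sq δ f ⊆ D := by
  unfold Fs
  rw [dif_pos (Fs_finite hδ hb), Set.Finite.mem_toFinset]
  rfl

theorem Fs_mono {δ : ℝ} (hδ : 0 < δ) {D D' : Set (ℝ × ℝ)} (h : D ⊆ D')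
    (hb : Bornology.IsBounded D') : Fs δ D ⊆ Fs δ D' := by
  intro f hf
  rw [mem_Fs hδ (hb.subset h)] at hf
  rw [mem_Fs hδ hb]
  exact hf.trans h

theorem hv_eq_hB {δ R : ℝ} (hδ : 0 < δ) : ∃ B : Finset (ℤ × ℤ), ∀ f : ℝ × ℝ → ℝ,
    (∀ z, f z ≠ 0 → z ∈ Metric.ball (0 : ℝ × ℝ) R) → ∀ ω, hv δ f ω = hB B δ f ω := by
  refine ⟨(lat_finite hδ R).toFinset, fun f hf ω => ?_⟩
  unfold hv hB
  rw [finsum_eq_sum_of_support_subset]
  intro v hv
  rw [Finset.mem_coe, Set.Finite.mem_toFinset]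
  exact hf _ (right_ne_zero_of_mul hv)

end Vale.Agent.P145.Top
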