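import Vale.Agent.P145.Top.Stmt

/-!
P145, block F-TOP, leaf K3: a test function is a finite sum of test functions supported in cells.
-/

namespace Vale.Agent.P145.Top

open Filter Topology Set MeasureTheory
open Vale.Agent.P145.PT
open scoped Manifold ContDiff

private theorem cells_isOpen (a b a' b' : ℝ) : IsOpen (cell a b a' b') := by
  have h : cell a b a' b' = {z : ℝ × ℝ | a < z.1 + z.2} ∩ {z | z.1 + z.2 < b} ∩
      {z | a' < z.1 - z.2} ∩ {z | z.1 - z.2 < b'} := by
    ext z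
    simp only [cell, Set.mem_setOf_eq, Set.mem_inter_iff]
    tauto
  rw [h]
  exact (((isOpen_lt continuous_const (continuous_fst.add continuous_snd)).inter
    (isOpen_lt (continuous_fst.add continuous_snd) continuous_const)).inter
    (isOpen_lt continuous_const (continuous_fst.sub continuous_snd))).inter
    (isOpen_lt (continuous_fst.sub continuous_snd) continuous_const)

private theorem cells_small {D : Set (ℝ × ℝ)} (hD : IsOpen D) {z : ℝ × ℝ} (hz : z ∈ D) :
    ∃ e : ℝ, 0 < e ∧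
      ccell (z.1 + z.2 - e) (z.1 + z.2 + e) (z.1 - z.2 - e) (z.1 - z.2 + e) ⊆ D := by
  obtain ⟨e, he, hb⟩ := Metric.nhds_basis_closedBall.mem_iff.1 (hD.mem_nhds hz)
  refine ⟨e, he, fun w hw => hb ?_⟩
  obtain ⟨h1, h2, h3, h4⟩ := hw
  rw [Metric.mem_closedBall, Prod.dist_eq, Real.dist_eq, Real.dist_eq]
  refine max_le (abs_le.2 ⟨by linarith, by linarith⟩) (abs_le.2 ⟨by linarith, by linarith⟩)

/-- **Leaf K3**: decomposition of a test function into test functions of cells. -/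
theorem exists_cells {D : Set (ℝ × ℝ)} (hD : IsOpen D) {ψ : ℝ × ℝ → ℝ} (hψ : TestOn D ψ) :
    ∃ (m : ℕ) (g : Fin m → ℝ × ℝ → ℝ) (a b a' b' : Fin m → ℝ),
      (∀ i, a i < b i ∧ a' i < b' i ∧ ccell (a i) (b i) (a' i) (b' i) ⊆ D ∧
        TestOn (cell (a i) (b i) (a' i) (b' i)) (g i)) ∧ ∀ z, ψ z = ∑ i, g i z := by
  classical
  have hK : IsCompact (tsupport ψ) := hψ.2.1
  have hKD : tsupport ψ ⊆ D := hψ.2.2
  choose! e he heD using fun (z : ℝ × ℝ) (hz : z ∈ D) => cells_small hD hz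
  let U : ℝ × ℝ → Set (ℝ × ℝ) := fun z =>
    cell (z.1 + z.2 - e z) (z.1 + z.2 + e z) (z.1 - z.2 - e z) (z.1 - z.2 + e z)
  obtain ⟨t, htK, htc⟩ := hK.elim_nhds_subcover U (fun z hz => (cells_isOpen _ _ _ _).mem_nhds (by
    have h := he z (hKD hz)
    exact ⟨by linarith, by linarith, by linarith, by linarith⟩))
  -- enumerate
  let q : Fin t.card ≃ t := t.equivFin.symm
  let c : Fin t.card → ℝ × ℝ := fun i => (q i : ℝ × ℝ)
  have hcK : ∀ i, c i ∈ tsupport ψ := fun i => htK _ (q i).2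
  have hcov : tsupport ψ ⊆ ⋃ i, U (c i) := by
    intro z hz
    obtain ⟨x, hx, hxz⟩ := Set.mem_iUnion₂.1 (htc hz)
    refine Set.mem_iUnion.2 ⟨q.symm ⟨x, hx⟩, ?_⟩
    simpa [c] using hxz
  obtain ⟨f, hf⟩ := SmoothPartitionOfUnity.exists_isSubordinate 𝓘(ℝ, ℝ × ℝ)
    (isClosed_tsupport ψ) (fun i => U (c i)) (fun i => cells_isOpen _ _ _ _) hcov
  refine ⟨t.card, fun i z => ψ z * f i z, fun i => (c i).1 + (c i).2 - e (c i),
    fun i => (c i).1 + (c i).2 + e (c i), fun i => (c i).1 - (c i).2 - e (c i),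
    fun i => (c i).1 - (c i).2 + e (c i), fun i => ?_, fun z => ?_⟩
  · have h := he (c i) (hKD (hcK i))
    refine ⟨by linarith, by linarith, heD _ (hKD (hcK i)), ?_, ?_, ?_⟩
    · have h1 : ContDiff ℝ ∞ (fun z => f i z) := (f i).contMDiff.contDiff
      exact hψ.1.mul h1
    · exact hψ.2.1.mul_right
    · exact (tsupport_mul_subset_right).trans (hf i)
  · by_cases hz : z ∈ tsupport ψ
    · rw [← Finset.mul_sum]
      have h1 : ∑ᶠ i, f i z = 1 := f.sum_eq_one hz
      rw [finsum_eq_sum_of_fintype] at h1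
      rw [h1, mul_one]
    · have h0 : ψ z = 0 := image_eq_zero_of_notMem_tsupport hz
      simp [h0]

end Vale.Agent.P145.Top
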