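import Vale.Agent.P145.Top.Squeeze

/-!
The convergence in law of the height functions in polygons, from the convergence of the moments.
-/

namespace Vale.Agent.P145.Top

open Filter Topology Set MeasureTheory
open Vale.Agent.P145.PT Vale.Agent.P145.FP Vale.Agent.P145.Dom

/-- All functions are integrable for the law in a polygon. -/
theorem law_integrable (t : ℝ) {n : ℕ} (p : ZMod n → ℤ × ℤ) (F : Finset (ℤ × ℤ)) (f : Conf → ℝ) :
    Integrable f (law t p F) := by
  unfold law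
  rw [integrable_finsetSum_measure]
  intro S _
  exact (integrable_dirac (by simp)).smul_measure ENNReal.ofReal_ne_top

/-- The conclusion, from the convergence of all moments of single test functions. -/
theorem conv_of_mom {t κ s : ℝ} (ht : 0 < t) (hs : κ = s ^ 2 * (2 * Real.pi))
    {D : Set (ℝ × ℝ)} (hJ : JordanDomain D)
    (hmom : ∀ (δ : ℕ → ℝ) (N : ℕ → ℕ) (p : ∀ n, ZMod (N n) → ℤ × ℤ) (F : ℕ → Finset (ℤ × ℤ)),
      Approx D δ N p F → ∀ φ : ℝ × ℝ → ℝ, TestOn D φ → ∀ k : ℕ,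
      Tendsto (fun n => ze (1 / t) (F n) (fun x => zf (F n) (δ n) φ x ^ k)) atTop
        (𝓝 (gm (κ * V D φ) k))) : Conv t s D := by
  intro δ N p F hA
  have hprob : ∀ n, IsProbabilityMeasure (law t (p n) (F n)) := fun n => law_prob ht.le (p n) (F n)
  refine ⟨hprob, fun n => ae_exists_isHt (hA.poly n) (hA.encl n), ?_⟩
  intro H hH k φ hφ
  refine conv_of_char hJ H (fun ψ hψ => ?_) k φ hφ
  have key := charfun_of_moments (l := atTop) (fun n => law t (p n) (F n))
    (fun n σ => fldD (F n) (H n σ) (δ n) ψ) (fun n j => law_integrable _ _ _ _)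
    (v := κ * V D ψ) (fun j => by
      refine (hmom δ N p F hA ψ hψ j).congr fun n => ?_
      have h := law_mom ht (hA.poly n) (hA.encl n) (hH n) (δ n) (Finset.range j) (fun _ => ψ)
      simp only [Finset.prod_const, Finset.card_range] at h
      exact h.symm)
  have e1 : ((-(κ * V D ψ / 2) : ℝ) : ℂ) = -((s ^ 2 * (2 * Real.pi) * V D ψ : ℝ) : ℂ) / 2 := by
    rw [hs]; push_cast; ring
  rw [e1] at key
  refine key.congr fun n => ?_
  refine integral_congr_ae (ae_of_all _ fun σ => ?_)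
  simp only []
  rw [mul_comm]

/-- The conclusion, from `S_mono`, `S_key` and the outer inclusion. -/
theorem conv_of_key {t κ s : ℝ} (ht : 0 < t) (hs : κ = s ^ 2 * (2 * Real.pi))
    {D : Set (ℝ × ℝ)} (hJ : JordanDomain D) (hm : S_mono (1 / t))
    (hkey : ∀ δ : ℕ → ℝ, (∀ n, 0 < δ n) → Tendsto δ atTop (𝓝 0) → S_key (1 / t) κ δ)
    (hout : ∀ (δ : ℕ → ℝ) (N : ℕ → ℕ) (p : ∀ n, ZMod (N n) → ℤ × ℤ) (F : ℕ → Finset (ℤ × ℤ)),
      Approx D δ N p F → ∀ D' : Set (ℝ × ℝ), IsOpen D' → Bornology.IsBounded D' →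
      closure D ⊆ D' → ∀ᶠ n in atTop, F n ⊆ Fs (δ n) D') : Conv t s D :=
  conv_of_mom ht hs hJ fun δ N p F hA _ hφ k =>
    squeeze hm hA.pos (hkey δ hA.pos hA.lim) hJ
      (fun D' _ hb hD' => approx_in hA D' hb hD') (hout δ N p F hA) hφ k

end Vale.Agent.P145.Top
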