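import Vale.Agent.P145.Top.Key5
import Vale.Agent.P145.Top.Cells
import Vale.Agent.P145.Top.Dominate
import Vale.Agent.P145.Top.ConvK

/-!
From `Inputs` to the convergence in law in all Jordan domains.
-/

namespace Vale.Agent.P145.Top

open Filter Topology Set MeasureTheory ProbabilityTheory
open Vale.Agent.P145.PT Vale.Agent.P145.FP Vale.Agent.P145.Dom

/-- The key statement, from the inputs. -/
theorem key {c κ : ℝ} {δ : ℕ → ℝ} (H : Inputs c κ δ) : S_key c κ δ :=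
  key_of H exists_cells exists_dom exists_big pos_part

/-- The outer inclusion (helper180, D4). -/
def S_out : Prop := ∀ (D : Set (ℝ × ℝ)), JordanDomain D → ∀ (δ : ℕ → ℝ) (N : ℕ → ℕ)
  (p : ∀ n, ZMod (N n) → ℤ × ℤ) (F : ℕ → Finset (ℤ × ℤ)), Approx D δ N p F →
  ∀ D' : Set (ℝ × ℝ), IsOpen D' → Bornology.IsBounded D' → closure D ⊆ D' →
    ∀ᶠ n in atTop, F n ⊆ Fs (δ n) D'

/-- Convergence in all Jordan domains, from the inputs. -/
theorem conv_of_inputs {t κ s : ℝ} (ht : 0 < t) (hs : κ = s ^ 2 * (2 * Real.pi)) (hκ : 0 < κ)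
    (hm : S_mono (1 / t)) (hin : ∀ δ : ℕ → ℝ, (∀ n, 0 < δ n) → Tendsto δ atTop (𝓝 0) →
      S_mb (1 / t) δ ∧ S_l2 (1 / t) δ ∧ S_dec (1 / t) δ ∧ S_xst (1 / t) κ δ)
    (hout : S_out) : ∀ D : Set (ℝ × ℝ), JordanDomain D → Conv t s D := fun D hJ =>
  conv_of_key ht hs hJ hm (fun δ hδ hl => key
    { cpos := by positivity
      κpos := hκ
      δpos := hδ
      δlim := hl
      mono := hm
      mb := (hin δ hδ hl).1
      l2 := (hin δ hδ hl).2.1
      dec := (hin δ hδ hl).2.2.1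
      xst := (hin δ hδ hl).2.2.2 }) (fun δ N p F hA => hout D hJ δ N p F hA)

end Vale.Agent.P145.Top
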