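import Mathlib

/-!
Polynomials in the vertex heights, the cone of polynomials with nonnegative coefficients, and
their integrals.
-/

namespace Vale.Agent.P145.Top

open MeasureTheory

/-- Real heights at the vertices of the lattice. -/
abbrev Om := ℤ × ℤ → ℝ

/-- Polynomials in the heights, with coefficients generated by `P`. -/
inductive Pol (P : ℝ → Prop) : (Om → ℝ) → Prop
  | mon (v : List (ℤ × ℤ)) : Pol P (fun ω => (v.map ω).prod)
  | zero : Pol P (fun _ => 0)
  | add {f g : Om → ℝ} : Pol P f → Pol P g → Pol P (fun ω => f ω + g ω)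
  | smul {f : Om → ℝ} (c : ℝ) : P c → Pol P f → Pol P (fun ω => c * f ω)

/-- `δ² ∑_{v ∈ B} ω(v) f(δ v)`. -/
noncomputable def hB (B : Finset (ℤ × ℤ)) (δ : ℝ) (f : ℝ × ℝ → ℝ) (ω : Om) : ℝ :=
  δ ^ 2 * ∑ v ∈ B, ω v * f (δ * v.1, δ * v.2)

/-- Product over a list of test functions. -/
noncomputable def hl (B : Finset (ℤ × ℤ)) (δ : ℝ) (l : List (ℝ × ℝ → ℝ)) (ω : Om) : ℝ :=
  (l.map fun f => hB B δ f ω).prod

theorem Pol.of_eq {P : ℝ → Prop} {f g : Om → ℝ} (hf : Pol P f) (h : ∀ ω, f ω = g ω) : Pol P g := by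
  have : f = g := funext h
  rwa [← this]

theorem Pol.cons {P : ℝ → Prop} {g : Om → ℝ} (hg : Pol P g) (v : ℤ × ℤ) :
    Pol P (fun ω => ω v * g ω) := by
  induction hg with
  | mon l => exact (Pol.mon (P := P) (v :: l)).of_eq fun ω => by simp
  | zero => exact Pol.zero.of_eq fun ω => by simp
  | add _ _ h1 h2 => exact (h1.add h2).of_eq fun ω => by ring
  | smul c hc _ h1 => exact (h1.smul c hc).of_eq fun ω => by ring

theorem Pol.sum {P : ℝ → Prop} {ι : Type*} (s : Finset ι) (g : ι → Om → ℝ)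
    (h : ∀ i ∈ s, Pol P (g i)) : Pol P (fun ω => ∑ i ∈ s, g i ω) := by
  classical
  induction s using Finset.induction_on with
  | empty => exact Pol.zero.of_eq fun ω => by simp
  | insert a s ha ih =>
    refine ((h a (Finset.mem_insert_self _ _)).add
      (ih fun i hi => h i (Finset.mem_insert_of_mem hi))).of_eq fun ω => ?_
    rw [Finset.sum_insert ha]

theorem Pol.hB {P : ℝ → Prop} {g : Om → ℝ} (hg : Pol P g) {B : Finset (ℤ × ℤ)} {δ : ℝ}
    {f : ℝ × ℝ → ℝ} (h : ∀ v ∈ B, P (δ ^ 2 * f (δ * v.1, δ * v.2))) :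
    Pol P (fun ω => hB B δ f ω * g ω) := by
  refine (Pol.sum B (fun v ω => (δ ^ 2 * f (δ * v.1, δ * v.2)) * (ω v * g ω))
    fun v hv => (hg.cons v).smul _ (h v hv)).of_eq fun ω => ?_
  unfold Top.hB
  rw [Finset.mul_sum, Finset.sum_mul]
  exact Finset.sum_congr rfl fun v _ => by ring

theorem Pol.one {P : ℝ → Prop} : Pol P (fun _ => 1) := (Pol.mon (P := P) []).of_eq fun ω => by simp

/-- The cone. -/
abbrev Cone : (Om → ℝ) → Prop := Pol (fun c => 0 ≤ c)

/-- The algebra. -/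
abbrev Alg : (Om → ℝ) → Prop := Pol (fun _ => True)

theorem Pol.alg {P : ℝ → Prop} {g : Om → ℝ} (hg : Pol P g) : Alg g := by
  induction hg with
  | mon l => exact Pol.mon l
  | zero => exact Pol.zero
  | add _ _ h1 h2 => exact h1.add h2
  | smul c _ _ h1 => exact h1.smul c trivial

theorem Cone.hB {g : Om → ℝ} (hg : Cone g) {B : Finset (ℤ × ℤ)} {δ : ℝ}
    {f : ℝ × ℝ → ℝ} (h : ∀ z, 0 ≤ f z) : Cone (fun ω => Top.hB B δ f ω * g ω) :=
  Pol.hB hg fun _ _ => mul_nonneg (sq_nonneg _) (h _)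

theorem Alg.hB {g : Om → ℝ} (hg : Alg g) {B : Finset (ℤ × ℤ)} {δ : ℝ}
    {f : ℝ × ℝ → ℝ} : Alg (fun ω => Top.hB B δ f ω * g ω) :=
  Pol.hB hg fun _ _ => trivial

theorem Alg.mul {f g : Om → ℝ} (hf : Alg f) (hg : Alg g) : Alg (fun ω => f ω * g ω) := by
  induction hf with
  | mon l =>
    induction l with
    | nil => exact hg.of_eq fun ω => by simp
    | cons v l ih => exact (ih.cons v).of_eq fun ω => by simp; ring
  | zero => exact Pol.zero.of_eq fun ω => by simp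
  | add _ _ h1 h2 => exact (h1.add h2).of_eq fun ω => by ring
  | smul c hc _ h1 => exact (h1.smul c hc).of_eq fun ω => by ring

theorem Alg.neg {f : Om → ℝ} (hf : Alg f) : Alg (fun ω => - f ω) :=
  (hf.smul (-1) trivial).of_eq fun ω => by ring

theorem Alg.sub {f g : Om → ℝ} (hf : Alg f) (hg : Alg g) : Alg (fun ω => f ω - g ω) :=
  (hf.add hg.neg).of_eq fun ω => by ring

theorem alg_hB {B : Finset (ℤ × ℤ)} {δ : ℝ} {f : ℝ × ℝ → ℝ} : Alg (hB B δ f) :=
  (Alg.hB (g := fun _ => 1) Pol.one).of_eq fun ω => by ring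

theorem Alg.pow {f : Om → ℝ} (hf : Alg f) (k : ℕ) : Alg (fun ω => f ω ^ k) := by
  induction k with
  | zero => exact Pol.one.of_eq fun ω => by simp
  | succ k ih => exact (hf.mul ih).of_eq fun ω => by ring

theorem alg_hl {B : Finset (ℤ × ℤ)} {δ : ℝ} (l : List (ℝ × ℝ → ℝ)) : Alg (hl B δ l) := by
  induction l with
  | nil => exact Pol.one.of_eq fun ω => by simp [hl]
  | cons f l ih => exact (Alg.hB (B := B) (δ := δ) ih (f := f)).of_eq fun ω => by simp [hl]

theorem cone_hl {B : Finset (ℤ × ℤ)} {δ : ℝ} (l : List (ℝ × ℝ → ℝ)) (h : ∀ f ∈ l, ∀ z, 0 ≤ f z) :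
    Cone (hl B δ l) := by
  induction l with
  | nil => exact Pol.one.of_eq fun ω => by simp [hl]
  | cons f l ih =>
    exact (Cone.hB (B := B) (δ := δ) (ih fun g hg => h g (List.mem_cons_of_mem _ hg))
      (h f List.mem_cons_self)).of_eq fun ω => by simp [hl]

theorem cone_pow {B : Finset (ℤ × ℤ)} {δ : ℝ} {f : ℝ × ℝ → ℝ} (h : ∀ z, 0 ≤ f z) (k : ℕ) :
    Cone (fun ω => hB B δ f ω ^ k) := by
  induction k with
  | zero => exact Pol.one.of_eq fun ω => by simp
  | succ k ih => exact (Cone.hB ih h).of_eq fun ω => by ring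

theorem hB_add {B : Finset (ℤ × ℤ)} {δ : ℝ} (f g : ℝ × ℝ → ℝ) (ω : Om) :
    hB B δ (fun z => f z + g z) ω = hB B δ f ω + hB B δ g ω := by
  unfold hB
  rw [← mul_add, ← Finset.sum_add_distrib]
  congr 1
  exact Finset.sum_congr rfl fun v _ => by ring

theorem hB_smul {B : Finset (ℤ × ℤ)} {δ : ℝ} (c : ℝ) (f : ℝ × ℝ → ℝ) (ω : Om) :
    hB B δ (fun z => c * f z) ω = c * hB B δ f ω := by
  unfold hB
  rw [Finset.mul_sum, Finset.mul_sum, Finset.mul_sum]
  exact Finset.sum_congr rfl fun v _ => by ring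

theorem hB_sub {B : Finset (ℤ × ℤ)} {δ : ℝ} (f g : ℝ × ℝ → ℝ) (ω : Om) :
    hB B δ (fun z => f z - g z) ω = hB B δ f ω - hB B δ g ω := by
  unfold hB
  rw [← mul_sub, ← Finset.sum_sub_distrib]
  congr 1
  exact Finset.sum_congr rfl fun v _ => by ring

/-- Domination of the products by the powers of a fixed function. -/
theorem cone_dom {B : Finset (ℤ × ℤ)} {δ : ℝ} {f0 : ℝ × ℝ → ℝ} (h0 : ∀ z, 0 ≤ f0 z) {C : ℝ}
    (hC : 0 ≤ C) (l : List (ℝ × ℝ → ℝ)) (h : ∀ f ∈ l, ∀ z, 0 ≤ f z ∧ f z ≤ C * f0 z) :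
    Cone (fun ω => C ^ l.length * hB B δ f0 ω ^ l.length - hl B δ l ω) := by
  induction l with
  | nil => exact Pol.zero.of_eq fun ω => by simp [hl]
  | cons f l ih =>
    have h1 := ih fun g hg => h g (List.mem_cons_of_mem _ hg)
    have hf := h f List.mem_cons_self
    have h2 := Cone.hB (B := B) (δ := δ) h1 (f := f) fun z => (hf z).1
    have h3 := Cone.hB (B := B) (δ := δ) ((cone_pow (B := B) (δ := δ) h0 l.length).smul
      (C ^ l.length) (pow_nonneg hC _)) (f := fun z => C * f0 z - f z)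
      fun z => sub_nonneg.2 (hf z).2
    refine (h2.add h3).of_eq fun ω => ?_
    rw [hB_sub, hB_smul]
    simp only [List.length_cons, hl, List.map_cons, List.prod_cons]
    ring

/-- All moments of the heights are finite. -/
structure Mom (μ : Measure Om) : Prop where
  prob : IsProbabilityMeasure μ
  int : ∀ v : List (ℤ × ℤ), Integrable (fun ω => (v.map ω).prod) μ

theorem Mom.integrable {μ : Measure Om} (hμ : Mom μ) {P : ℝ → Prop} {g : Om → ℝ} (hg : Pol P g) :
    Integrable g μ := by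
  induction hg with
  | mon l => exact hμ.int l
  | zero => exact integrable_zero _ _ _
  | add _ _ h1 h2 => exact h1.add h2
  | smul c _ _ h1 => exact h1.const_mul c

theorem Mom.nonneg {μ : Measure Om} (hμ : Mom μ)
    (hpos : ∀ v : List (ℤ × ℤ), 0 ≤ ∫ ω, (v.map ω).prod ∂μ) {g : Om → ℝ} (hg : Cone g) :
    0 ≤ ∫ ω, g ω ∂μ := by
  induction hg with
  | mon l => exact hpos l
  | zero => simp
  | add h1 h2 i1 i2 =>
    rw [integral_add (hμ.integrable h1) (hμ.integrable h2)]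
    exact add_nonneg i1 i2
  | smul c hc _ i1 =>
    rw [integral_const_mul]
    exact mul_nonneg hc i1

theorem Mom.mono {μ ν : Measure Om} (hμ : Mom μ) (hν : Mom ν)
    (hm : ∀ v : List (ℤ × ℤ), ∫ ω, (v.map ω).prod ∂μ ≤ ∫ ω, (v.map ω).prod ∂ν) {g : Om → ℝ}
    (hg : Cone g) : ∫ ω, g ω ∂μ ≤ ∫ ω, g ω ∂ν := by
  induction hg with
  | mon l => exact hm l
  | zero => simp
  | add h1 h2 i1 i2 =>
    rw [integral_add (hμ.integrable h1) (hμ.integrable h2),
      integral_add (hν.integrable h1) (hν.integrable h2)]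
    exact add_le_add i1 i2
  | smul c hc _ i1 =>
    rw [integral_const_mul, integral_const_mul]
    exact mul_le_mul_of_nonneg_left i1 hc

/-- Cauchy-Schwarz. -/
theorem Mom.cs {μ : Measure Om} (hμ : Mom μ) {f g : Om → ℝ} (hf : Alg f) (hg : Alg g) :
    (∫ ω, f ω * g ω ∂μ) ^ 2 ≤ (∫ ω, f ω ^ 2 ∂μ) * ∫ ω, g ω ^ 2 ∂μ := by
  have i1 := hμ.integrable (hf.pow 2)
  have i2 := hμ.integrable (hg.pow 2)
  have i3 := hμ.integrable (hf.mul hg)
  set a := ∫ ω, f ω ^ 2 ∂μ with ha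
  set b := ∫ ω, f ω * g ω ∂μ with hb
  set c := ∫ ω, g ω ^ 2 ∂μ with hc
  have hc0 : 0 ≤ c := integral_nonneg fun ω => sq_nonneg _
  have ha0 : 0 ≤ a := integral_nonneg fun ω => sq_nonneg _
  have key : ∀ t : ℝ, 0 ≤ a * (t * t) + 2 * b * t + c := by
    intro t
    have h1 : 0 ≤ ∫ ω, (t * f ω + g ω) ^ 2 ∂μ := integral_nonneg fun ω => sq_nonneg _
    have h2 : ∫ ω, (t * f ω + g ω) ^ 2 ∂μ = a * (t * t) + 2 * b * t + c := by
      have : ∀ ω, (t * f ω + g ω) ^ 2 = (t * t) * f ω ^ 2 + (2 * t) * (f ω * g ω) + g ω ^ 2 :=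
        fun ω => by ring
      simp_rw [this]
      have i4 : Integrable (fun ω => t * t * f ω ^ 2 + 2 * t * (f ω * g ω)) μ :=
        (i1.const_mul _).add (i3.const_mul _)
      rw [integral_add i4 i2, integral_add (i1.const_mul _) (i3.const_mul _),
        integral_const_mul, integral_const_mul]
      ring
    rwa [h2] at h1
  have := discrim_le_zero key
  unfold discrim at this
  nlinarith

end Vale.Agent.P145.Top
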