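import Vale.Agent.P145.PT.Mom

/-!
Polynomial interpolation: convergence of polynomials of degree at most `k` at `0, …, k` implies
convergence at `-1`; the Gaussian moments as polynomials.
-/

namespace Vale.Agent.P145.Top

open Filter Topology Polynomial Vale.Agent.P145.PT

theorem exists_interp (k : ℕ) : ∃ l : Fin (k + 1) → ℝ, ∀ q : ℝ[X], q.natDegree ≤ k →
    q.eval (-1) = ∑ i, l i * q.eval (i : ℝ) := by
  have hinj : Set.InjOn (fun i : Fin (k + 1) => ((i : ℕ) : ℝ)) (Finset.univ : Finset (Fin (k + 1))) := by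
    intro i _ j _ h
    have h' : ((i : ℕ) : ℝ) = ((j : ℕ) : ℝ) := h
    exact Fin.ext (by exact_mod_cast h')
  refine ⟨fun i => (Lagrange.basis Finset.univ (fun i : Fin (k + 1) => ((i : ℕ) : ℝ)) i).eval (-1),
    fun q hq => ?_⟩
  have hdeg : q.degree < (Finset.univ : Finset (Fin (k + 1))).card := by
    rw [Finset.card_univ, Fintype.card_fin]
    refine lt_of_le_of_lt degree_le_natDegree ?_
    exact_mod_cast Nat.lt_succ_of_le hq
  have h := Lagrange.eq_interpolate hinj hdeg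
  conv_lhs => rw [h]
  rw [Lagrange.interpolate_apply, eval_finsetSum]
  refine Finset.sum_congr rfl fun i _ => ?_
  rw [eval_mul, eval_C]; ring

/-- The Gaussian moments with a polynomial variance. -/
noncomputable def gmP (v : ℝ[X]) : ℕ → ℝ[X]
  | 0 => 1
  | 1 => 0
  | n + 2 => C ((n : ℝ) + 1) * v * gmP v n

theorem gmP_eval (v : ℝ[X]) (a : ℝ) (n : ℕ) :
    (gmP v n).eval a = gm (v.eval a) n ∧ (gmP v (n + 1)).eval a = gm (v.eval a) (n + 1) := by
  induction n with
  | zero => simp [gmP, gm]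
  | succ n ih =>
    refine ⟨ih.2, ?_⟩
    change (C ((n : ℝ) + 1) * v * gmP v n).eval a = (n + 1) * v.eval a * gm (v.eval a) n
    rw [eval_mul, eval_mul, eval_C, ih.1]

theorem gmP_deg {v : ℝ[X]} (hv : v.natDegree ≤ 2) (n : ℕ) :
    (gmP v n).natDegree ≤ n ∧ (gmP v (n + 1)).natDegree ≤ n + 1 := by
  induction n with
  | zero => simp [gmP]
  | succ n ih =>
    refine ⟨ih.2, ?_⟩
    change (C ((n : ℝ) + 1) * v * gmP v n).natDegree ≤ n + 1 + 1
    refine (natDegree_mul_le).trans ?_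
    have h1 : (C ((n : ℝ) + 1) * v).natDegree ≤ 2 :=
      (natDegree_C_mul_le _ _).trans hv
    have := ih.1
    omega

/-- If `∑ⱼ C(k,j) aʲ bₙⱼ` converges to `gm (α + β a + γ a²) k` for `a = 0, …, k`, then it does so for
`a = -1`. -/
theorem tendsto_neg_one {ι : Type*} {l : Filter ι} (k : ℕ) (b : ι → ℕ → ℝ) (α β γ : ℝ)
    (h : ∀ i : ℕ, i ≤ k → Tendsto (fun n => ∑ j ∈ Finset.range (k + 1),
      (k.choose j : ℝ) * (i : ℝ) ^ j * b n j) l (𝓝 (gm (α + β * i + γ * (i : ℝ) ^ 2) k))) :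
    Tendsto (fun n => ∑ j ∈ Finset.range (k + 1), (k.choose j : ℝ) * (-1) ^ j * b n j) l
      (𝓝 (gm (α + β * (-1) + γ * (-1) ^ 2) k)) := by
  obtain ⟨w, hw⟩ := exists_interp k
  set q : ι → ℝ[X] := fun n => ∑ j ∈ Finset.range (k + 1), C ((k.choose j : ℝ) * b n j) * X ^ j
    with hq
  have hqe : ∀ n a, (q n).eval a = ∑ j ∈ Finset.range (k + 1), (k.choose j : ℝ) * a ^ j * b n j := by
    intro n a
    rw [hq]; simp only
    rw [eval_finsetSum]
    refine Finset.sum_congr rfl fun j _ => ?_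
    rw [eval_mul, eval_C, eval_pow, eval_X]; ring
  have hqd : ∀ n, (q n).natDegree ≤ k := by
    intro n
    refine natDegree_sum_le_of_forall_le _ _ fun j hj => ?_
    refine (natDegree_C_mul_X_pow_le _ _).trans ?_
    have := Finset.mem_range.1 hj; omega
  set v : ℝ[X] := C α + C β * X + C γ * X ^ 2 with hv
  have hve : ∀ a, v.eval a = α + β * a + γ * a ^ 2 := by
    intro a; rw [hv]; simp
  have hvd : v.natDegree ≤ 2 := by
    rw [hv]
    refine (natDegree_add_le _ _).trans (max_le ((natDegree_add_le _ _).trans (max_le ?_ ?_)) ?_)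
    · rw [natDegree_C]; norm_num
    · exact (natDegree_C_mul_le _ _).trans (by rw [natDegree_X]; norm_num)
    · exact natDegree_C_mul_X_pow_le γ 2
  have h1 : ∀ n, ∑ j ∈ Finset.range (k + 1), (k.choose j : ℝ) * (-1) ^ j * b n j
      = ∑ i, w i * (q n).eval ((i : ℕ) : ℝ) := by
    intro n; rw [← hqe, hw (q n) (hqd n)]
  have h2 : gm (α + β * (-1) + γ * (-1) ^ 2) k
      = ∑ i, w i * gm (α + β * ((i : ℕ) : ℝ) + γ * ((i : ℕ) : ℝ) ^ 2) k := by
    rw [← hve, ← (gmP_eval v (-1) k).1, hw _ (gmP_deg hvd k).1]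
    refine Finset.sum_congr rfl fun i _ => ?_
    rw [(gmP_eval v _ k).1, hve]
  simp_rw [h1]
  rw [h2]
  refine tendsto_finsetSum _ fun i _ => ?_
  refine Tendsto.const_mul _ ?_
  simp_rw [hqe]
  exact h i (Nat.lt_succ_iff.1 i.2)

end Vale.Agent.P145.Top
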