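import Vale.Agent.P145.Top.Key1
import Vale.Agent.P145.Top.Stmt

/-!
The setting for the identification of the limit, and limits along an ultrafilter.
-/

namespace Vale.Agent.P145.Top

open Filter Topology Set MeasureTheory
open Vale.Agent.P145.PT Vale.Agent.P145.FP Vale.Agent.P145.Dom

/-- Limit along an ultrafilter. -/
noncomputable def lm (U : Ultrafilter ℕ) (x : ℕ → ℝ) : ℝ := limUnder (U : Filter ℕ) x

theorem tend_lm {U : Ultrafilter ℕ} {x : ℕ → ℝ} {C : ℝ} (h : ∀ᶠ n in (U : Filter ℕ), |x n| ≤ C) :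
    Tendsto x U (𝓝 (lm U x)) := by
  have h1 : (U.map x : Filter ℝ) ≤ 𝓟 (Icc (-C) C) := by
    rw [Ultrafilter.coe_map, le_principal_iff, mem_map]
    filter_upwards [h] with n hn
    exact abs_le.1 hn
  obtain ⟨y, -, hy'⟩ := isCompact_Icc.ultrafilter_le_nhds _ h1
  exact tendsto_nhds_limUnder ⟨y, hy'⟩

theorem lm_eq {U : Ultrafilter ℕ} {x : ℕ → ℝ} {y : ℝ} (h : Tendsto x U (𝓝 y)) : lm U x = y :=
  h.limUnder_eq

/-- The setting. -/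
structure Setup (c κ : ℝ) (δ : ℕ → ℝ) (R : ℝ) (B : ℕ → Finset (ℤ × ℤ)) (f0 : ℝ × ℝ → ℝ)
    (μ : ℕ → Set (ℝ × ℝ) → Measure Om) : Prop where
  inp : Inputs c κ δ
  Rpos : 0 < R
  pos : ∀ n D, Pos (μ n D)
  ee : ∀ n D (A : Om → ℝ), ∫ ω, A ω ∂(μ n D) = EE c (δ n) D A
  mono : ∀ n D D', D ⊆ D' → D' ⊆ Metric.ball 0 R → ∀ v : List (ℤ × ℤ),
    ∫ ω, (v.map ω).prod ∂(μ n D) ≤ ∫ ω, (v.map ω).prod ∂(μ n D')
  mean : ∀ n D u, ∫ ω, ω u ∂(μ n D) = 0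
  f0t : TestOn (Metric.ball 0 (2 * R)) f0
  f00 : ∀ z, 0 ≤ f0 z
  f01 : ∀ z ∈ Metric.ball (0 : ℝ × ℝ) R, 1 ≤ f0 z
  hvB : ∀ n f, (∀ z, f z ≠ 0 → z ∈ Metric.ball (0 : ℝ × ℝ) (2 * R)) → ∀ ω,
    hv (δ n) f ω = hB (B n) (δ n) f ω

section

variable {c κ : ℝ} {δ : ℕ → ℝ} {R : ℝ} {B : ℕ → Finset (ℤ × ℤ)} {f0 : ℝ × ℝ → ℝ}
  {μ : ℕ → Set (ℝ × ℝ) → Measure Om}

theorem Setup.supp (S : Setup c κ δ R B f0 μ) {D : Set (ℝ × ℝ)} (hD : D ⊆ Metric.ball 0 R)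
    {f : ℝ × ℝ → ℝ} (hf : TestOn D f) : ∀ z, f z ≠ 0 → z ∈ Metric.ball (0 : ℝ × ℝ) (2 * R) := by
  intro z hz
  have h1 : z ∈ D := hf.2.2 (subset_tsupport _ hz)
  exact Metric.ball_subset_ball (by linarith [S.Rpos]) (hD h1)

theorem Setup.supp0 (S : Setup c κ δ R B f0 μ) :
    ∀ z, f0 z ≠ 0 → z ∈ Metric.ball (0 : ℝ × ℝ) (2 * R) := fun _ hz =>
  S.f0t.2.2 (subset_tsupport _ hz)

theorem Setup.hvl_eq (S : Setup c κ δ R B f0 μ) {D : Set (ℝ × ℝ)} (hD : D ⊆ Metric.ball 0 R)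
    (n : ℕ) {l : List (ℝ × ℝ → ℝ)} (hl' : ∀ f ∈ l, TestOn D f) (ω : Om) :
    hvl (δ n) l ω = hl (B n) (δ n) l ω := by
  unfold hvl hl
  congr 1
  exact List.map_congr_left fun f hf => S.hvB n f (S.supp hD (hl' f hf)) ω

/-- A test function is dominated by `f0`. -/
theorem Setup.le_f0 (S : Setup c κ δ R B f0 μ) {D : Set (ℝ × ℝ)} (hD : D ⊆ Metric.ball 0 R)
    {f : ℝ × ℝ → ℝ} (hf : TestOn D f) : ∃ C : ℝ, 0 ≤ C ∧ ∀ z, |f z| ≤ C * f0 z := by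
  obtain ⟨C, hC⟩ := hf.cs.exists_bound_of_continuous hf.cont
  have hC0 : 0 ≤ C := (norm_nonneg _).trans (hC 0)
  refine ⟨C, hC0, fun z => ?_⟩
  by_cases hz : f z = 0
  · rw [hz, abs_zero]; exact mul_nonneg hC0 (S.f00 z)
  · have h1 : z ∈ D := hf.2.2 (subset_tsupport _ hz)
    have h2 := S.f01 z (hD h1)
    have h3 := hC z
    rw [Real.norm_eq_abs] at h3
    nlinarith

/-- Boundedness of the moments. -/
theorem Setup.bdd_pow (S : Setup c κ δ R B f0 μ) {D : Set (ℝ × ℝ)} (hDo : IsOpen D)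
    (hD : D ⊆ Metric.ball 0 R) {f : ℝ × ℝ → ℝ} (hf : HasCompactSupport f) (hfs : Sm f)
    (hf2 : ∀ z, f z ≠ 0 → z ∈ Metric.ball (0 : ℝ × ℝ) (2 * R)) (hf0 : ∀ z, 0 ≤ f z) (k : ℕ) :
    ∃ C : ℝ, ∀ᶠ n in atTop, ∫ ω, hB (B n) (δ n) f ω ^ k ∂(μ n D) ≤ C := by
  obtain ⟨C, hC⟩ := S.inp.mb D hDo (Metric.isBounded_ball.subset hD) f
    ⟨hfs, hf, subset_univ _⟩ hf0 k
  refine ⟨C, ?_⟩
  filter_upwards [hC] with n hn
  rw [← S.ee n D (fun ω => hv (δ n) f ω ^ k)] at hn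
  refine le_trans (le_of_eq ?_) hn
  congr 1
  funext ω
  rw [S.hvB n f hf2 ω]

/-- The `L²` bound for signed test functions. -/
theorem Setup.l2 (S : Setup c κ δ R B f0 μ)
    (hdom : ∀ {D : Set (ℝ × ℝ)}, IsOpen D → Bornology.IsBounded D → ∀ {f : ℝ × ℝ → ℝ},
      TestOn D f → ∀ {ε : ℝ}, 0 < ε → ∃ g : ℝ × ℝ → ℝ, TestOn D g ∧ (∀ z, |f z| ≤ g z) ∧
        ∫ z, g z ^ 2 ≤ (∫ z, f z ^ 2) + ε) :
    ∃ C : ℝ, 0 ≤ C ∧ ∀ D : Set (ℝ × ℝ), IsOpen D → D ⊆ Metric.ball 0 R →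
      ∀ f : ℝ × ℝ → ℝ, TestOn D f → ∀ ε : ℝ, 0 < ε → ∀ᶠ n in atTop,
        ∫ ω, hB (B n) (δ n) f ω ^ 2 ∂(μ n D) ≤ C * (∫ z, f z ^ 2) + ε := by
  obtain ⟨C, hC0, hC⟩ := S.inp.l2 R S.Rpos
  refine ⟨C, hC0, fun D hDo hD f hf ε hε => ?_⟩
  obtain ⟨g, hg, hfg, hI⟩ := hdom hDo (Metric.isBounded_ball.subset hD) hf
    (show 0 < ε / (2 * (C + 1)) by positivity)
  have hg0 : ∀ z, 0 ≤ g z := fun z => (abs_nonneg _).trans (hfg z)
  filter_upwards [hC D hDo hD g (hg.mono hD) hg0 (ε / 2) (by positivity)] with n hn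
  rw [← S.ee n D (fun ω => hv (δ n) g ω ^ 2)] at hn
  have h1 : ∫ ω, hv (δ n) g ω ^ 2 ∂(μ n D) = ∫ ω, hB (B n) (δ n) g ω ^ 2 ∂(μ n D) := by
    congr 1; funext ω; rw [S.hvB n g (S.supp hD hg) ω]
  rw [h1] at hn
  have h2 := (S.pos n D).sq_le (B := B n) (δ := δ n) hfg
  have h3 : C * (ε / (2 * (C + 1))) ≤ ε / 2 := by
    have : C * (ε / (2 * (C + 1))) = ε / 2 * (C / (C + 1)) := by field_simp
    rw [this]
    have : C / (C + 1) ≤ 1 := by rw [div_le_one (by linarith)]; linarith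
    have h5 : 0 < ε / 2 := by positivity
    nlinarith
  have h4 := mul_le_mul_of_nonneg_left hI hC0
  rw [mul_add] at h4
  linarith

/-- A good parameter: the moments of `f0` vary little around it. -/
def Good (δ : ℕ → ℝ) (B : ℕ → Finset (ℤ × ℤ)) (f0 : ℝ × ℝ → ℝ)
    (μ : ℕ → Set (ℝ × ℝ) → Measure Om) (a b : ℝ) (D : ℝ → Set (ℝ × ℝ)) (U : Ultrafilter ℕ)
    (s : ℝ) : Prop :=
  ∀ (K : ℕ) (ε : ℝ), 0 < ε → ∀ t ∈ Ioo a b, t < s → ∃ s₁ ∈ Ioo a b, ∃ s₂ ∈ Ioo a b,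
    t < s₁ ∧ s₁ < s ∧ s < s₂ ∧ ∀ k ≤ K, ∀ᶠ n in (U : Filter ℕ),
      (∫ ω, hB (B n) (δ n) f0 ω ^ k ∂(μ n (D s₂))) - ∫ ω, hB (B n) (δ n) f0 ω ^ k ∂(μ n (D s₁)) ≤ ε

theorem Setup.exists_good (S : Setup c κ δ R B f0 μ) {a b : ℝ} {D : ℝ → Set (ℝ × ℝ)}
    (hN : Nest a b D) (hR : ∀ s ∈ Ioo a b, D s ⊆ Metric.ball 0 R) {U : Ultrafilter ℕ}
    (hU : (U : Filter ℕ) ≤ atTop) : ∃ s ∈ Ioo a b, Good δ B f0 μ a b D U s := by
  set m : ℕ → ℝ → ℝ := fun k s => lm U fun n => ∫ ω, hB (B n) (δ n) f0 ω ^ k ∂(μ n (D s)) with hm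
  have ht : ∀ k, ∀ s ∈ Ioo a b,
      Tendsto (fun n => ∫ ω, hB (B n) (δ n) f0 ω ^ k ∂(μ n (D s))) U (𝓝 (m k s)) := by
    intro k s hs
    obtain ⟨C, hC⟩ := S.bdd_pow (hN.op s hs) (hR s hs) S.f0t.2.1 S.f0t.1 S.supp0 S.f00 k
    refine tend_lm (C := C) ?_
    filter_upwards [hU hC] with n hn
    rw [abs_of_nonneg ((S.pos n _).pow_nonneg S.f00 k)]
    exact hn
  have hsub : ∀ s ∈ Ioo a b, ∀ t ∈ Ioo a b, s ≤ t → D s ⊆ D t := by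
    intro s hs t ht' hst
    rcases hst.eq_or_lt with h | h
    · rw [h]
    · exact subset_closure.trans (hN.nest s hs t ht' h)
  have hmono : ∀ k, MonotoneOn (m k) (Ioo a b) := by
    intro k s hs t ht' hst
    refine le_of_tendsto_of_tendsto' (ht k s hs) (ht k t ht') fun n => ?_
    exact pow_mono' (S.pos n _).mom (S.pos n _).mom
      (S.mono n _ _ (hsub s hs t ht' hst) (hR t ht')) S.f00 k
  have hcount : (⋃ k, {s ∈ Ioo a b | ¬ ContinuousWithinAt (m k) (Ioo a b) s}).Countable :=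
    countable_iUnion fun k => (hmono k).countable_not_continuousWithinAt
  obtain ⟨s, hs, hs'⟩ : ∃ s ∈ Ioo a b,
      s ∉ ⋃ k, {s ∈ Ioo a b | ¬ ContinuousWithinAt (m k) (Ioo a b) s} := by
    by_contra hcon
    push Not at hcon
    exact absurd (Cardinal.Real.Ioo_countable_iff.1 (hcount.mono hcon)) (not_le.2 hN.lt)
  have hc : ∀ k, ContinuousAt (m k) s := by
    intro k
    have h1 : ContinuousWithinAt (m k) (Ioo a b) s := by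
      by_contra h
      exact hs' (mem_iUnion.2 ⟨k, hs, h⟩)
    exact h1.continuousAt (isOpen_Ioo.mem_nhds hs)
  refine ⟨s, hs, fun K ε hε t htab hts => ?_⟩
  have hev : ∀ᶠ u in 𝓝 s, ∀ k ∈ Finset.range (K + 1), |m k u - m k s| < ε / 4 := by
    rw [Filter.eventually_all_finset]
    intro k _
    have := Metric.tendsto_nhds.1 (hc k) (ε / 4) (by positivity)
    simpa [Real.dist_eq] using this
  obtain ⟨r, hr, hball⟩ := Metric.eventually_nhds_iff.1 hev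
  set s₁ : ℝ := max ((t + s) / 2) (s - r / 2) with hs1
  set s₂ : ℝ := min ((s + b) / 2) (s + r / 2) with hs2
  have e1 : t < s₁ := lt_of_lt_of_le (by linarith) (le_max_left _ _)
  have e2 : s₁ < s := max_lt (by linarith) (by linarith)
  have e3 : s < s₂ := lt_min (by linarith [hs.2]) (by linarith)
  have e4 : s₂ < b := lt_of_le_of_lt (min_le_left _ _) (by linarith [hs.2])
  have h1 : s₁ ∈ Ioo a b := ⟨htab.1.trans e1, e2.trans hs.2⟩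
  have h2 : s₂ ∈ Ioo a b := ⟨hs.1.trans e3, e4⟩
  refine ⟨s₁, h1, s₂, h2, e1, e2, e3, fun k hk => ?_⟩
  have d1 := hball (y := s₁) (by
    rw [Real.dist_eq, abs_lt]
    exact ⟨by linarith [le_max_right ((t + s) / 2) (s - r / 2)], by linarith⟩) k
    (Finset.mem_range.2 (by omega))
  have d2 := hball (y := s₂) (by
    rw [Real.dist_eq, abs_lt]
    exact ⟨by linarith, by linarith [min_le_right ((s + b) / 2) (s + r / 2)]⟩) k
    (Finset.mem_range.2 (by omega))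
  rw [abs_lt] at d1 d2
  have h3 := (ht k s₂ h2).sub (ht k s₁ h1)
  have h4 := h3.eventually (gt_mem_nhds (show m k s₂ - m k s₁ < ε by linarith [d1.1, d2.2]))
  filter_upwards [h4] with n hn using hn.le

end

end Vale.Agent.P145.Top
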