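import Vale.Agent.P145.Top.Key2

/-!
The Schwinger-Dyson equation in `D s` for a good parameter `s`, in a cell.
-/

namespace Vale.Agent.P145.Top

open Filter Topology Set MeasureTheory
open Vale.Agent.P145.PT Vale.Agent.P145.FP Vale.Agent.P145.Dom

section

variable {c κ : ℝ} {δ : ℕ → ℝ} {R : ℝ} {B : ℕ → Finset (ℤ × ℤ)} {f0 : ℝ × ℝ → ℝ}
  {μ : ℕ → Set (ℝ × ℝ) → Measure Om}

theorem ccell_closed (a b a' b' : ℝ) : IsClosed (ccell a b a' b') := by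
  have h : ccell a b a' b' = {z : ℝ × ℝ | a ≤ z.1 + z.2} ∩ {z | z.1 + z.2 ≤ b} ∩
      {z | a' ≤ z.1 - z.2} ∩ {z | z.1 - z.2 ≤ b'} := by
    ext z
    simp only [ccell, mem_ofPred_eq, mem_inter_iff]
    tauto
  rw [h]
  exact (((isClosed_le continuous_const (continuous_fst.add continuous_snd)).inter
    (isClosed_le (continuous_fst.add continuous_snd) continuous_const)).inter
    (isClosed_le continuous_const (continuous_fst.sub continuous_snd))).inter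
    (isClosed_le (continuous_fst.sub continuous_snd) continuous_const)

theorem cell_sub_ccell (a b a' b' : ℝ) : cell a b a' b' ⊆ ccell a b a' b' :=
  fun _ h => ⟨h.1.le, h.2.1.le, h.2.2.1.le, h.2.2.2.le⟩

/-- The error in the Schwinger-Dyson equation. -/
noncomputable def sdE (κ : ℝ) (B : Finset (ℤ × ℤ)) (δ : ℝ) (μ : Measure Om) (ψ f : ℝ × ℝ → ℝ)
    (k : ℕ) : ℝ :=
  (∫ ω, hB B δ (lap ψ) ω * hB B δ f ω ^ (k + 1) ∂μ) +
    κ * (k + 1) * (∫ z, ψ z * f z) * ∫ ω, hB B δ f ω ^ k ∂μ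

/-- The comparison of two states on a list. -/
theorem close_of_sandwich {x e e₁ e₂ d η : ℝ} (h1 : e₁ ≤ x + η) (h2 : x ≤ e₂ + η) (h3 : e₁ ≤ e)
    (h4 : e ≤ e₂) (h5 : e₂ - e₁ ≤ d) (hη : 0 ≤ η) : |e - x| ≤ d + η := by
  rw [abs_le]
  constructor <;> linarith

theorem Setup.sd_cell (S : Setup c κ δ R B f0 μ)
    (hpp : ∀ {D : Set (ℝ × ℝ)}, IsOpen D → Bornology.IsBounded D → ∀ {f : ℝ × ℝ → ℝ},
      TestOn D f → D ⊆ Metric.ball (0 : ℝ × ℝ) R → ∃ (p m : ℝ × ℝ → ℝ) (C : ℝ), 0 ≤ C ∧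
        TestOn D p ∧ TestOn D m ∧ (∀ z, 0 ≤ p z ∧ p z ≤ C * f0 z) ∧
        (∀ z, 0 ≤ m z ∧ m z ≤ C * f0 z) ∧ ∀ z, f z = p z - m z)
    {a b : ℝ} {D : ℝ → Set (ℝ × ℝ)}
    (hN : Nest a b D) (hR : ∀ s ∈ Ioo a b, D s ⊆ Metric.ball 0 R) {U : Ultrafilter ℕ}
    (hU : (U : Filter ℕ) ≤ atTop) {s : ℝ} (hs : s ∈ Ioo a b) (hG : Good δ B f0 μ a b D U s)
    {x y x' y' : ℝ} (hxy : x < y) (hxy' : x' < y') (hcc : ccell x y x' y' ⊆ D s)
    {ψ f : ℝ × ℝ → ℝ} (hψ : TestOn (cell x y x' y') ψ) (hf : TestOn (D s) f)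
    (hf0 : ∀ z, 0 ≤ f z) (k : ℕ) {ε : ℝ} (hε : 0 < ε) :
    ∀ᶠ n in (U : Filter ℕ), |sdE κ (B n) (δ n) (μ n (D s)) ψ f k| ≤ ε := by
  have hsub : ∀ s ∈ Ioo a b, ∀ t ∈ Ioo a b, s ≤ t → D s ⊆ D t := by
    intro s hs t ht' hst
    rcases hst.eq_or_lt with h | h
    · rw [h]
    · exact subset_closure.trans (hN.nest s hs t ht' h)
  have hKc : IsCompact (ccell x y x' y' ∪ tsupport f) :=
    (Metric.isCompact_of_isClosed_isBounded (ccell_closed _ _ _ _)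
      ((hN.bdd s hs).subset hcc)).union hf.2.1
  obtain ⟨t, ht, hts, hKt⟩ := hN.exh s hs _ (union_subset hcc hf.2.2) hKc
  have hcct : ccell x y x' y' ⊆ D t := subset_union_left.trans hKt
  have hft : TestOn (D t) f := ⟨hf.1, hf.2.1, subset_union_right.trans hKt⟩
  have hψt : TestOn (D t) ψ := hψ.mono ((cell_sub_ccell _ _ _ _).trans hcct)
  obtain ⟨p, m, C₁, hC₁, hp, hm, hp', hm', hpm⟩ := hpp (hN.op t ht) (hN.bdd t ht) hψt.lap (hR t ht)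
  obtain ⟨C₂, hC₂, hfC⟩ := S.le_f0 (hR t ht) hft
  set C : ℝ := C₁ + C₂ with hC
  have hC0 : 0 ≤ C := by positivity
  have hpC : ∀ z, 0 ≤ p z ∧ p z ≤ C * f0 z := fun z =>
    ⟨(hp' z).1, (hp' z).2.trans (mul_le_mul_of_nonneg_right (by linarith) (S.f00 z))⟩
  have hmC : ∀ z, 0 ≤ m z ∧ m z ≤ C * f0 z := fun z =>
    ⟨(hm' z).1, (hm' z).2.trans (mul_le_mul_of_nonneg_right (by linarith) (S.f00 z))⟩
  have hfC' : ∀ z, 0 ≤ f z ∧ f z ≤ C * f0 z := fun z =>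
    ⟨hf0 z, ((le_abs_self _).trans (hfC z)).trans
      (mul_le_mul_of_nonneg_right (by linarith) (S.f00 z))⟩
  set lp : List (ℝ × ℝ → ℝ) := p :: List.replicate (k + 1) f with hlp
  set lq : List (ℝ × ℝ → ℝ) := m :: List.replicate (k + 1) f with hlq
  set lk : List (ℝ × ℝ → ℝ) := List.replicate k f with hlk
  set q : ℝ := κ * (k + 1) * ∫ z, ψ z * f z with hq
  have dlp : ∀ g ∈ lp, ∀ z, 0 ≤ g z ∧ g z ≤ C * f0 z := by
    intro g hg
    rw [hlp, List.mem_cons] at hg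
    rcases hg with rfl | hg
    · exact hpC
    · rw [List.eq_of_mem_replicate hg]; exact hfC'
  have dlq : ∀ g ∈ lq, ∀ z, 0 ≤ g z ∧ g z ≤ C * f0 z := by
    intro g hg
    rw [hlq, List.mem_cons] at hg
    rcases hg with rfl | hg
    · exact hmC
    · rw [List.eq_of_mem_replicate hg]; exact hfC'
  have dlk : ∀ g ∈ lk, ∀ z, 0 ≤ g z ∧ g z ≤ C * f0 z := by
    intro g hg
    rw [List.eq_of_mem_replicate hg]; exact hfC'
  have tlp : ∀ g ∈ lp, TestOn (D t) g := by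
    intro g hg
    rw [hlp, List.mem_cons] at hg
    rcases hg with rfl | hg
    · exact hp
    · rw [List.eq_of_mem_replicate hg]; exact hft
  have tlq : ∀ g ∈ lq, TestOn (D t) g := by
    intro g hg
    rw [hlq, List.mem_cons] at hg
    rcases hg with rfl | hg
    · exact hm
    · rw [List.eq_of_mem_replicate hg]; exact hft
  have tlk : ∀ g ∈ lk, TestOn (D t) g := by
    intro g hg
    rw [List.eq_of_mem_replicate hg]; exact hft
  have llp : lp.length = k + 2 := by rw [hlp]; simp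
  have llq : lq.length = k + 2 := by rw [hlq]; simp
  have llk : lk.length = k := by rw [hlk]; simp
  -- choice of the parameters
  set Λ : ℝ := 2 * C ^ (k + 2) + |q| * C ^ k + 1 with hΛ
  have hΛ0 : 0 < Λ := by positivity
  obtain ⟨s₁, h1, s₂, h2, e1, e2, e3, hdiff⟩ := hG (k + 2) (ε / (3 * Λ)) (by positivity) t ht hts
  have hts1 : D t ⊆ D s₁ := hsub t ht s₁ h1 e1.le
  set Θ : ℝ := 3 + |q| with hΘ
  have hΘ0 : 0 < Θ := by positivity
  obtain ⟨ν, hν, hsand, hsd⟩ := S.inp.xst (D s₁) (D s₂) (hN.op _ h1) (hN.op _ h2) (hN.bdd _ h2)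
    (hN.nest s₁ h1 s₂ h2 (e2.trans e3)) x y x' y' hxy hxy' (hcct.trans (hsub t ht s₁ h1 e1.le))
    ψ f k hψ (hft.mono hts1) hf0 [lp, lq, lk] (by
      intro l hl' g hg
      simp only [List.mem_cons, List.not_mem_nil, or_false] at hl'
      rcases hl' with rfl | rfl | rfl
      · exact ⟨(tlp g hg).mono hts1, fun z => (dlp g hg z).1⟩
      · exact ⟨(tlq g hg).mono hts1, fun z => (dlq g hg z).1⟩
      · exact ⟨(tlk g hg).mono hts1, fun z => (dlk g hg z).1⟩)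
    (ε / (3 * Θ)) (by positivity)
  have sp := hsand lp (by simp)
  have sq := hsand lq (by simp)
  have sk := hsand lk (by simp)
  filter_upwards [hU sp, hU sq, hU sk, hU hsd, hdiff (k + 2) le_rfl, hdiff k (by omega), hU hν]
    with n hp1 hq1 hk1 hsd1 hd2 hdk hνn
  -- rewrite everything in terms of `hB`
  have eqX : ∀ l : List (ℝ × ℝ → ℝ), (∀ g ∈ l, TestOn (D t) g) →
      ∀ ρ : Measure Om, ∫ ω, hvl (δ n) l ω ∂ρ = ∫ ω, hl (B n) (δ n) l ω ∂ρ := by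
    intro l hl' ρ
    congr 1
    funext ω
    exact S.hvl_eq (hR t ht) n hl' ω
  rw [← S.ee, ← S.ee, eqX lp tlp, eqX lp tlp, eqX lp tlp] at hp1
  rw [← S.ee, ← S.ee, eqX lq tlq, eqX lq tlq, eqX lq tlq] at hq1
  rw [← S.ee, ← S.ee, eqX lk tlk, eqX lk tlk, eqX lk tlk] at hk1
  have mm : ∀ l : List (ℝ × ℝ → ℝ), (∀ g ∈ l, ∀ z, 0 ≤ g z) →
      ∫ ω, hl (B n) (δ n) l ω ∂(μ n (D s₁)) ≤ ∫ ω, hl (B n) (δ n) l ω ∂(μ n (D s)) ∧
      ∫ ω, hl (B n) (δ n) l ω ∂(μ n (D s)) ≤ ∫ ω, hl (B n) (δ n) l ω ∂(μ n (D s₂)) := fun l hl' =>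
    ⟨hl_mono (S.pos _ _).mom (S.pos _ _).mom
      (S.mono n _ _ (hsub _ h1 _ hs e2.le) (hR _ hs)) l hl',
     hl_mono (S.pos _ _).mom (S.pos _ _).mom
      (S.mono n _ _ (hsub _ hs _ h2 e3.le) (hR _ h2)) l hl'⟩
  have dd' : ∀ l : List (ℝ × ℝ → ℝ), (∀ g ∈ l, ∀ z, 0 ≤ g z ∧ g z ≤ C * f0 z) →
      (∫ ω, hl (B n) (δ n) l ω ∂(μ n (D s₂))) - ∫ ω, hl (B n) (δ n) l ω ∂(μ n (D s₁)) ≤
      C ^ l.length * ((∫ ω, hB (B n) (δ n) f0 ω ^ l.length ∂(μ n (D s₂))) -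
        ∫ ω, hB (B n) (δ n) f0 ω ^ l.length ∂(μ n (D s₁))) := fun l hl' =>
    dom_diff (S.pos _ _).mom (S.pos _ _).mom
      (S.mono n _ _ (hsub _ h1 _ h2 (e2.trans e3).le) (hR _ h2)) S.f00 hC0 l hl'
  have cp := close_of_sandwich hp1.1 hp1.2 (mm lp fun g hg z => (dlp g hg z).1).1
    (mm lp fun g hg z => (dlp g hg z).1).2 (dd' lp dlp) (by positivity)
  have cq := close_of_sandwich hq1.1 hq1.2 (mm lq fun g hg z => (dlq g hg z).1).1
    (mm lq fun g hg z => (dlq g hg z).1).2 (dd' lq dlq) (by positivity)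
  have ck := close_of_sandwich hk1.1 hk1.2 (mm lk fun g hg z => (dlk g hg z).1).1
    (mm lk fun g hg z => (dlk g hg z).1).2 (dd' lk dlk) (by positivity)
  rw [llp] at cp
  rw [llq] at cq
  rw [llk] at ck
  -- the identities
  have hlapB : ∀ ω, hv (δ n) (lap ψ) ω = hB (B n) (δ n) (lap ψ) ω :=
    S.hvB n _ (S.supp (hR t ht) hψt.lap)
  have hfB : ∀ ω, hv (δ n) f ω = hB (B n) (δ n) f ω := S.hvB n _ (S.supp (hR t ht) hft)
  have hlapω : ∀ ω, hB (B n) (δ n) (lap ψ) ω * hB (B n) (δ n) f ω ^ (k + 1) =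
      hl (B n) (δ n) lp ω - hl (B n) (δ n) lq ω := by
    intro ω
    have e : lap ψ = fun z => p z - m z := funext hpm
    rw [e, hB_sub, hlp, hlq, hl_cons, hl_cons, hl_replicate]
    ring
  have idX : ∀ ρ : Measure Om, Mom ρ →
      (∫ ω, hB (B n) (δ n) (lap ψ) ω * hB (B n) (δ n) f ω ^ (k + 1) ∂ρ) +
        κ * (k + 1) * (∫ z, ψ z * f z) * ∫ ω, hB (B n) (δ n) f ω ^ k ∂ρ =
      (∫ ω, hl (B n) (δ n) lp ω ∂ρ) - (∫ ω, hl (B n) (δ n) lq ω ∂ρ) +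
        q * ∫ ω, hl (B n) (δ n) lk ω ∂ρ := by
    intro ρ hρ
    have e1 : ∫ ω, hB (B n) (δ n) (lap ψ) ω * hB (B n) (δ n) f ω ^ (k + 1) ∂ρ =
        (∫ ω, hl (B n) (δ n) lp ω ∂ρ) - ∫ ω, hl (B n) (δ n) lq ω ∂ρ := by
      rw [← integral_sub (hρ.integrable (alg_hl _)) (hρ.integrable (alg_hl _))]
      congr 1
      funext ω
      exact hlapω ω
    have e2 : ∫ ω, hl (B n) (δ n) lk ω ∂ρ = ∫ ω, hB (B n) (δ n) f ω ^ k ∂ρ := by
      congr 1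
      funext ω
      rw [hlk, hl_replicate]
    rw [e1, e2]
  have eG : ∫ ω, hv (δ n) (lap ψ) ω * hv (δ n) f ω ^ (k + 1) ∂(ν n) +
        κ * (k + 1) * (∫ z, ψ z * f z) * ∫ ω, hv (δ n) f ω ^ k ∂(ν n) =
      (∫ ω, hl (B n) (δ n) lp ω ∂(ν n)) - (∫ ω, hl (B n) (δ n) lq ω ∂(ν n)) +
        q * ∫ ω, hl (B n) (δ n) lk ω ∂(ν n) := by
    rw [← idX (ν n) hνn]
    simp_rw [hlapB, hfB]
  rw [eG] at hsd1
  unfold sdE
  rw [idX _ (S.pos n _).mom]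
  set P := ∫ ω, hl (B n) (δ n) lp ω ∂(μ n (D s)) with hP
  set Q := ∫ ω, hl (B n) (δ n) lq ω ∂(μ n (D s)) with hQ
  set K := ∫ ω, hl (B n) (δ n) lk ω ∂(μ n (D s)) with hK
  set P' := ∫ ω, hl (B n) (δ n) lp ω ∂(ν n) with hP'
  set Q' := ∫ ω, hl (B n) (δ n) lq ω ∂(ν n) with hQ'
  set K' := ∫ ω, hl (B n) (δ n) lk ω ∂(ν n) with hK'
  set ε₁ : ℝ := ε / (3 * Λ) with hε₁
  set η : ℝ := ε / (3 * Θ) with hη
  have hε₁0 : 0 < ε₁ := by positivity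
  have hη0 : 0 < η := by positivity
  have cp' : |P - P'| ≤ C ^ (k + 2) * ε₁ + η :=
    cp.trans (by
      have := mul_le_mul_of_nonneg_left hd2 (pow_nonneg hC0 (k + 2))
      linarith)
  have cq' : |Q - Q'| ≤ C ^ (k + 2) * ε₁ + η :=
    cq.trans (by
      have := mul_le_mul_of_nonneg_left hd2 (pow_nonneg hC0 (k + 2))
      linarith)
  have ck' : |K - K'| ≤ C ^ k * ε₁ + η :=
    ck.trans (by
      have := mul_le_mul_of_nonneg_left hdk (pow_nonneg hC0 k)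
      linarith)
  have tri : |P - Q + q * K| ≤ |P - P'| + |Q - Q'| + |q| * |K - K'| + |P' - Q' + q * K'| := by
    have e : P - Q + q * K = (P - P') - (Q - Q') + q * (K - K') + (P' - Q' + q * K') := by ring
    rw [e]
    refine (abs_add_le _ _).trans (add_le_add ?_ le_rfl)
    refine (abs_add_le _ _).trans (add_le_add ?_ (abs_mul _ _).le)
    exact abs_sub _ _
  refine tri.trans ?_
  have f1 := mul_le_mul_of_nonneg_left ck' (abs_nonneg q)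
  have f2 : Λ * ε₁ = ε / 3 := by rw [hε₁]; field_simp
  have f3 : Θ * η = ε / 3 := by rw [hη]; field_simp
  have f4 : Λ * ε₁ = 2 * (C ^ (k + 2) * ε₁) + |q| * (C ^ k * ε₁) + ε₁ := by rw [hΛ]; ring
  have f5 : Θ * η = η + η + |q| * η + η := by rw [hΘ]; ring
  have f6 : |q| * (C ^ k * ε₁ + η) = |q| * (C ^ k * ε₁) + |q| * η := by ring
  linarith

end

end Vale.Agent.P145.Top
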