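import Vale.Agent.P145.Top.Key3

/-!
The identification of the limit for a good parameter.
-/

namespace Vale.Agent.P145.Top

open Filter Topology Set MeasureTheory
open Vale.Agent.P145.PT Vale.Agent.P145.FP Vale.Agent.P145.Dom

theorem lap_zero' (z : ℝ × ℝ) : lap (fun _ => (0 : ℝ)) z = 0 := by
  have h : Sm (fun _ : ℝ × ℝ => (0 : ℝ)) := contDiff_const
  have := lap_smul h 0 z
  simpa using this

theorem lap_sum {ι : Type*} (s : Finset ι) (g : ι → ℝ × ℝ → ℝ) (hg : ∀ i ∈ s, Sm (g i))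
    (z : ℝ × ℝ) : lap (fun z => ∑ i ∈ s, g i z) z = ∑ i ∈ s, lap (g i) z := by
  classical
  induction s using Finset.induction_on with
  | empty => simpa using lap_zero' z
  | insert a s ha ih =>
    have e : (fun z => ∑ i ∈ insert a s, g i z) = fun z => g a z + ∑ i ∈ s, g i z := by
      funext z; rw [Finset.sum_insert ha]
    rw [e, Finset.sum_insert ha, lap_add (hg a (Finset.mem_insert_self _ _)) ?_,
      ih fun i hi => hg i (Finset.mem_insert_of_mem hi)]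
    exact ContDiff.sum fun i hi => hg i (Finset.mem_insert_of_mem hi)

theorem hB_sum {B : Finset (ℤ × ℤ)} {δ : ℝ} {ι : Type*} (s : Finset ι) (g : ι → ℝ × ℝ → ℝ)
    (ω : Om) : hB B δ (fun z => ∑ i ∈ s, g i z) ω = ∑ i ∈ s, hB B δ (g i) ω := by
  unfold hB
  rw [← Finset.mul_sum, Finset.sum_comm]
  congr 1
  exact Finset.sum_congr rfl fun v _ => Finset.mul_sum _ _ _

theorem sdE_sum {κ : ℝ} {B : Finset (ℤ × ℤ)} {δ : ℝ} {μ : Measure Om} (hμ : Mom μ)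
    {D : Set (ℝ × ℝ)} {ι : Type*} (s : Finset ι) (g : ι → ℝ × ℝ → ℝ) (hg : ∀ i ∈ s, TestOn D (g i))
    {f : ℝ × ℝ → ℝ} (hf : Continuous f) (k : ℕ) :
    sdE κ B δ μ (fun z => ∑ i ∈ s, g i z) f k = ∑ i ∈ s, sdE κ B δ μ (g i) f k := by
  unfold sdE
  have e1 : lap (fun z => ∑ i ∈ s, g i z) = fun z => ∑ i ∈ s, lap (g i) z :=
    funext fun z => lap_sum s g (fun i hi => (hg i hi).sm) z
  have e2 : ∫ ω, hB B δ (lap fun z => ∑ i ∈ s, g i z) ω * hB B δ f ω ^ (k + 1) ∂μ =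
      ∑ i ∈ s, ∫ ω, hB B δ (lap (g i)) ω * hB B δ f ω ^ (k + 1) ∂μ := by
    rw [← integral_finsetSum _ fun i _ => hμ.integrable (Alg.mul alg_hB (alg_hB.pow (k + 1)))]
    congr 1
    funext ω
    rw [e1, hB_sum, Finset.sum_mul]
  have e3 : ∫ z, (∑ i ∈ s, g i z) * f z = ∑ i ∈ s, ∫ z, g i z * f z := by
    rw [← integral_finsetSum _ fun i hi => (hg i hi).intMul hf]
    congr 1
    funext z
    rw [Finset.sum_mul]
  rw [e2, e3, Finset.sum_add_distrib, Finset.mul_sum, Finset.sum_mul]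

theorem sq_limit {U : Ultrafilter ℕ} {x : ℕ → ℝ} {A a C : ℝ} (hC : 0 ≤ C)
    (hx : Tendsto x U (𝓝 A))
    (h : ∀ ε : ℝ, 0 < ε → ∀ᶠ n in (U : Filter ℕ), x n ^ 2 ≤ (a + ε) * C) : A ^ 2 ≤ a * C := by
  refine le_of_forall_pos_le_add fun η hη => ?_
  have h1 := h (η / (C + 1)) (by positivity)
  have h2 : A ^ 2 ≤ (a + η / (C + 1)) * C := le_of_tendsto (hx.pow 2) h1
  have h3 : η / (C + 1) * C ≤ η := by
    rw [div_mul_eq_mul_div, div_le_iff₀ (by linarith)]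
    nlinarith
  rw [add_mul] at h2
  linarith

section

variable {c κ : ℝ} {δ : ℕ → ℝ} {R : ℝ} {B : ℕ → Finset (ℤ × ℤ)} {f0 : ℝ × ℝ → ℝ}
  {μ : ℕ → Set (ℝ × ℝ) → Measure Om}

/-- The facts about a fixed domain and a fixed ultrafilter which are used below. -/
structure Fix (κ : ℝ) (δ : ℕ → ℝ) (B : ℕ → Finset (ℤ × ℤ)) (μ : ℕ → Measure Om)
    (D : Set (ℝ × ℝ)) (U : Ultrafilter ℕ) : Prop where
  κpos : 0 < κ
  op : IsOpen D
  bdd : Bornology.IsBounded D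
  pos : ∀ n, Pos (μ n)
  mean : ∀ n u, ∫ ω, ω u ∂(μ n) = 0
  mb : ∀ f, TestOn D f → (∀ z, 0 ≤ f z) → ∀ k : ℕ, ∃ C : ℝ, ∀ᶠ n in (U : Filter ℕ),
    ∫ ω, hB (B n) (δ n) f ω ^ k ∂(μ n) ≤ C
  l2 : ∃ C : ℝ, 0 ≤ C ∧ ∀ f, TestOn D f → ∀ ε : ℝ, 0 < ε → ∀ᶠ n in (U : Filter ℕ),
    ∫ ω, hB (B n) (δ n) f ω ^ 2 ∂(μ n) ≤ C * (∫ z, f z ^ 2) + ε
  dec : ∀ f, TestOn D f → (∀ z, 0 ≤ f z) → ∀ (k : ℕ) (ε : ℝ), 0 < ε → ∃ r : ℝ, 0 < r ∧
    ∀ x ∈ D, dd D x < r → ∀ᶠ n in (U : Filter ℕ),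
      ∫ ω, hB (B n) (δ n) (bump (dd D x / 2) x) ω * hB (B n) (δ n) f ω ^ k ∂(μ n) ≤ ε
  sd : ∀ ψ f, TestOn D ψ → TestOn D f → (∀ z, 0 ≤ f z) → ∀ k : ℕ,
    Tendsto (fun n => sdE κ (B n) (δ n) (μ n) ψ f k) U (𝓝 0)

variable {ρ : ℕ → Measure Om} {D : Set (ℝ × ℝ)} {U : Ultrafilter ℕ}

theorem Fix.tend_mixed (F : Fix κ δ B ρ D U) {g f : ℝ × ℝ → ℝ} (hg : TestOn D g)
    (hf : TestOn D f) (hf0 : ∀ z, 0 ≤ f z) (k : ℕ) :
    Tendsto (fun n => ∫ ω, hB (B n) (δ n) g ω * hB (B n) (δ n) f ω ^ k ∂(ρ n)) U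
      (𝓝 (lm U fun n => ∫ ω, hB (B n) (δ n) g ω * hB (B n) (δ n) f ω ^ k ∂(ρ n))) := by
  obtain ⟨C₂, hC₂, h2⟩ := F.l2
  obtain ⟨C', hC'⟩ := F.mb f hf hf0 (2 * k)
  refine tend_lm (C := Real.sqrt ((C₂ * (∫ z, g z ^ 2) + 1) * C')) ?_
  filter_upwards [h2 g hg 1 one_pos, hC'] with n h3 h4
  refine Real.abs_le_sqrt (((F.pos n).mixed_sq_le g f k).trans ?_)
  exact mul_le_mul h3 h4 ((F.pos n).pow_nonneg hf0 _)
    ((integral_nonneg fun ω => sq_nonneg _).trans h3)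

theorem Fix.tend_pair (F : Fix κ δ B ρ D U) {g f : ℝ × ℝ → ℝ} (hg : TestOn D g)
    (hf : TestOn D f) :
    Tendsto (fun n => ∫ ω, hB (B n) (δ n) g ω * hB (B n) (δ n) f ω ∂(ρ n)) U
      (𝓝 (lm U fun n => ∫ ω, hB (B n) (δ n) g ω * hB (B n) (δ n) f ω ∂(ρ n))) := by
  obtain ⟨C₂, hC₂, h2⟩ := F.l2
  refine tend_lm (C := Real.sqrt ((C₂ * (∫ z, g z ^ 2) + 1) * (C₂ * (∫ z, f z ^ 2) + 1))) ?_
  filter_upwards [h2 g hg 1 one_pos, h2 f hf 1 one_pos] with n h3 h4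
  refine Real.abs_le_sqrt (((F.pos n).mom.cs alg_hB alg_hB).trans ?_)
  exact mul_le_mul h3 h4 (integral_nonneg fun ω => sq_nonneg _)
    ((integral_nonneg fun ω => sq_nonneg _).trans h3)

theorem Fix.tend_pow (F : Fix κ δ B ρ D U) {f : ℝ × ℝ → ℝ}
    (hf : TestOn D f) (hf0 : ∀ z, 0 ≤ f z) (k : ℕ) :
    Tendsto (fun n => ∫ ω, hB (B n) (δ n) f ω ^ k ∂(ρ n)) U
      (𝓝 (lm U fun n => ∫ ω, hB (B n) (δ n) f ω ^ k ∂(ρ n))) := by
  obtain ⟨C', hC'⟩ := F.mb f hf hf0 k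
  refine tend_lm (C := C') ?_
  filter_upwards [hC'] with n h4
  rw [abs_of_nonneg ((F.pos n).pow_nonneg hf0 _)]
  exact h4

theorem Fix.l2fn_mixed (F : Fix κ δ B ρ D U) {f : ℝ × ℝ → ℝ}
    (hf : TestOn D f) (hf0 : ∀ z, 0 ≤ f z) (k : ℕ) :
    ∃ C, L2Fn D (fun g => lm U fun n =>
      ∫ ω, hB (B n) (δ n) g ω * hB (B n) (δ n) f ω ^ k ∂(ρ n)) C := by
  obtain ⟨C₂, hC₂, h2⟩ := F.l2
  obtain ⟨C', hC'⟩ := F.mb f hf hf0 (2 * k)
  have hC'' : ∀ᶠ n in (U : Filter ℕ), ∫ ω, hB (B n) (δ n) f ω ^ (2 * k) ∂(ρ n) ≤ max C' 0 := by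
    filter_upwards [hC'] with n h using h.trans (le_max_left _ _)
  refine ⟨Real.sqrt (C₂ * max C' 0), ?_, ?_, ?_⟩
  · intro g g' hg hg'
    refine lm_eq ?_
    refine ((F.tend_mixed hg hf hf0 k).add (F.tend_mixed hg' hf hf0 k)).congr fun n => ?_
    rw [← integral_add ((F.pos n).mom.integrable (Alg.mul alg_hB (alg_hB.pow k)))
      ((F.pos n).mom.integrable (Alg.mul alg_hB (alg_hB.pow k)))]
    congr 1
    funext ω
    rw [hB_add]; ring
  · intro a g hg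
    refine lm_eq ?_
    refine ((F.tend_mixed hg hf hf0 k).const_mul a).congr fun n => ?_
    rw [← integral_const_mul]
    congr 1
    funext ω
    rw [hB_smul]; ring
  · intro g hg
    have h3 : (lm U fun n => ∫ ω, hB (B n) (δ n) g ω * hB (B n) (δ n) f ω ^ k ∂(ρ n)) ^ 2 ≤
        (C₂ * ∫ z, g z ^ 2) * max C' 0 := by
      refine sq_limit (le_max_right _ _) (F.tend_mixed hg hf hf0 k) fun ε hε => ?_
      filter_upwards [h2 g hg ε hε, hC''] with n h3 h4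
      refine ((F.pos n).mixed_sq_le g f k).trans ?_
      exact mul_le_mul h3 h4 ((F.pos n).pow_nonneg hf0 _)
        ((integral_nonneg fun ω => sq_nonneg _).trans h3)
    have h4 := Real.abs_le_sqrt h3
    rw [show C₂ * (∫ z, g z ^ 2) * max C' 0 = (C₂ * max C' 0) * ∫ z, g z ^ 2 by ring,
      Real.sqrt_mul (mul_nonneg hC₂ (le_max_right _ _))] at h4
    exact h4

theorem Fix.l2fn_pair (F : Fix κ δ B ρ D U) {f : ℝ × ℝ → ℝ} (hf : TestOn D f) :
    ∃ C, L2Fn D (fun g => lm U fun n =>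
      ∫ ω, hB (B n) (δ n) g ω * hB (B n) (δ n) f ω ∂(ρ n)) C := by
  obtain ⟨C₂, hC₂, h2⟩ := F.l2
  set C' : ℝ := C₂ * (∫ z, f z ^ 2) + 1 with hC'
  have hC'0 : 0 ≤ C' := by
    have : 0 ≤ ∫ z, f z ^ 2 := integral_nonneg fun z => sq_nonneg _
    positivity
  refine ⟨Real.sqrt (C₂ * C'), ?_, ?_, ?_⟩
  · intro g g' hg hg'
    refine lm_eq ?_
    refine ((F.tend_pair hg hf).add (F.tend_pair hg' hf)).congr fun n => ?_
    rw [← integral_add ((F.pos n).mom.integrable (Alg.mul alg_hB alg_hB))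
      ((F.pos n).mom.integrable (Alg.mul alg_hB alg_hB))]
    congr 1
    funext ω
    rw [hB_add]; ring
  · intro a g hg
    refine lm_eq ?_
    refine ((F.tend_pair hg hf).const_mul a).congr fun n => ?_
    rw [← integral_const_mul]
    congr 1
    funext ω
    rw [hB_smul]; ring
  · intro g hg
    have h3 : (lm U fun n => ∫ ω, hB (B n) (δ n) g ω * hB (B n) (δ n) f ω ∂(ρ n)) ^ 2 ≤
        (C₂ * ∫ z, g z ^ 2) * C' := by
      refine sq_limit hC'0 (F.tend_pair hg hf) fun ε hε => ?_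
      filter_upwards [h2 g hg ε hε, h2 f hf 1 one_pos] with n h3 h4
      refine ((F.pos n).mom.cs alg_hB alg_hB).trans ?_
      exact mul_le_mul h3 h4 (integral_nonneg fun ω => sq_nonneg _)
        ((integral_nonneg fun ω => sq_nonneg _).trans h3)
    have h4 := Real.abs_le_sqrt h3
    rw [show C₂ * (∫ z, g z ^ 2) * C' = (C₂ * C') * ∫ z, g z ^ 2 by ring,
      Real.sqrt_mul (mul_nonneg hC₂ hC'0)] at h4
    exact h4

theorem Fix.sd_lim (F : Fix κ δ B ρ D U) {ψ f : ℝ × ℝ → ℝ} (hψ : TestOn D ψ)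
    (hf : TestOn D f) (hf0 : ∀ z, 0 ≤ f z) (k : ℕ) :
    (lm U fun n => ∫ ω, hB (B n) (δ n) (lap ψ) ω * hB (B n) (δ n) f ω ^ (k + 1) ∂(ρ n)) =
      - (κ * (k + 1) * (∫ z, ψ z * f z) *
        lm U fun n => ∫ ω, hB (B n) (δ n) f ω ^ k ∂(ρ n)) := by
  have h1 := (F.tend_mixed hψ.lap hf hf0 (k + 1)).add
    ((F.tend_pow hf hf0 k).const_mul (κ * (k + 1) * ∫ z, ψ z * f z))
  have h2 := tendsto_nhds_unique h1 (F.sd ψ f hψ hf hf0 k)
  linarith

theorem Fix.mass (F : Fix κ δ B ρ D U) (f : ℝ × ℝ → ℝ) :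
    (lm U fun n => ∫ ω, hB (B n) (δ n) f ω ^ 0 ∂(ρ n)) = 1 := by
  refine lm_eq ?_
  have : (fun n => ∫ ω, hB (B n) (δ n) f ω ^ 0 ∂(ρ n)) = fun _ => (1 : ℝ) := by
    funext n
    have := (F.pos n).mom.prob
    simp
  rw [this]
  exact tendsto_const_nhds

theorem bump_test' {D : Set (ℝ × ℝ)} (hD : IsOpen D) (hb : Bornology.IsBounded D) {x : ℝ × ℝ}
    (hx : x ∈ D) : TestOn D (bump (dd D x / 2) x) := by
  have h1 : 0 < dd D x := (dd_pos hD hb).2 hx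
  exact bump_test (by linarith) (ball_sub (by linarith))

/-- The limit two-point function. -/
theorem Fix.cov (F : Fix κ δ B ρ D U) :
    Cov D κ fun g f => lm U fun n => ∫ ω, hB (B n) (δ n) g ω * hB (B n) (δ n) f ω ∂(ρ n) where
  symm := fun f g _ _ => by
    congr 1
    funext n
    congr 1
    funext ω
    ring
  pos := fun f hf => ge_of_tendsto' (F.tend_pair hf hf) fun n =>
    integral_nonneg fun ω => mul_self_nonneg _
  bd := fun g hg => F.l2fn_pair hg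
  sd := by
    intro ψ g hψ hg
    obtain ⟨p, m, hp, hm, hp0, hm0, hpm⟩ := exists_decomp F.op F.bdd hg
    have h1 := F.sd_lim hψ hp hp0 0
    have h2 := F.sd_lim hψ hm hm0 0
    rw [F.mass] at h1 h2
    have e : g = fun z => p z - m z := funext hpm
    have t1 := F.tend_mixed hψ.lap hp hp0 1
    have t2 := F.tend_mixed hψ.lap hm hm0 1
    simp only [zero_add] at h1 h2
    rw [h1] at t1
    rw [h2] at t2
    have t3 := t1.sub t2
    have i1 : ∫ z, ψ z * g z = (∫ z, ψ z * p z) - ∫ z, ψ z * m z := by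
      rw [← integral_sub (hψ.intMul hp.cont) (hψ.intMul hm.cont)]
      congr 1
      funext z
      rw [hpm]; ring
    refine lm_eq ?_
    have e2 : - (κ * ∫ z, ψ z * g z) =
        -(κ * ((0 : ℕ) + 1) * (∫ z, ψ z * p z) * 1) - -(κ * ((0 : ℕ) + 1) * (∫ z, ψ z * m z) * 1) := by
      rw [i1]; push_cast; ring
    rw [e2]
    refine t3.congr fun n => ?_
    rw [← integral_sub ((F.pos n).mom.integrable (Alg.mul alg_hB (alg_hB.pow 1)))
      ((F.pos n).mom.integrable (Alg.mul alg_hB (alg_hB.pow 1)))]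
    congr 1
    funext ω
    rw [e, hB_sub]; ring
  dec := by
    intro g hg hg0 ε hε
    obtain ⟨r, hr, h⟩ := F.dec g hg hg0 1 ε hε
    refine ⟨r, hr, fun x hx hxr => ?_⟩
    refine le_of_tendsto (F.tend_pair (bump_test' F.op F.bdd hx) hg) ?_
    filter_upwards [h x hx hxr] with n hn
    simpa using hn

/-- The moments are Gaussian in the limit. -/
theorem Fix.gauss (F : Fix κ δ B ρ D U) {f : ℝ × ℝ → ℝ} (hf : TestOn D f) (hf0 : ∀ z, 0 ≤ f z)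
    (k : ℕ) : Tendsto (fun n => ∫ ω, hB (B n) (δ n) f ω ^ k ∂(ρ n)) U (𝓝 (gm (κ * V D f) k)) := by
  have h := moments_gauss F.op F.bdd F.κpos hf F.cov
    (fun k g => lm U fun n => ∫ ω, hB (B n) (δ n) g ω * hB (B n) (δ n) f ω ^ k ∂(ρ n))
    (fun k => lm U fun n => ∫ ω, hB (B n) (δ n) f ω ^ k ∂(ρ n)) ?_ (F.mass f) ?_
    (fun k => F.l2fn_mixed hf hf0 k) ?_ ?_ ?_ k
  · rw [← h]
    exact F.tend_pow hf hf0 k
  · simp only [pow_one]
  · intro n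
    congr 1
    funext j
    congr 1
    funext ω
    rw [pow_succ, mul_comm]
  · intro ψ hψ
    refine lm_eq ?_
    have : (fun n => ∫ ω, hB (B n) (δ n) (lap ψ) ω * hB (B n) (δ n) f ω ^ 0 ∂(ρ n)) =
        fun _ => (0 : ℝ) := by
      funext n
      simp only [pow_zero, mul_one]
      unfold hB
      rw [integral_const_mul, integral_finsetSum _ fun v _ => ?_]
      · rw [Finset.sum_eq_zero fun v _ => ?_, mul_zero]
        rw [integral_mul_const, F.mean n v, zero_mul]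
      · have := (F.pos n).mom.int [v]
        simp only [List.map_cons, List.map_nil, List.prod_cons, List.prod_nil, mul_one] at this
        exact this.mul_const _
    rw [this]
    exact tendsto_const_nhds
  · intro n ψ hψ
    exact F.sd_lim hψ hf hf0 n
  · intro n ε hε
    obtain ⟨r, hr, h⟩ := F.dec f hf hf0 n ε hε
    refine ⟨r, hr, fun x hx hxr => ?_⟩
    have hb := bump_test' F.op F.bdd hx
    have t := F.tend_mixed hb hf hf0 n
    have h0 : 0 ≤ lm U fun j => ∫ ω, hB (B j) (δ j) (bump (dd D x / 2) x) ω *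
        hB (B j) (δ j) f ω ^ n ∂(ρ j) :=
      ge_of_tendsto' t fun j => (F.pos j).mom.nonneg (F.pos j).pos
        (Cone.hB (cone_pow hf0 n) (bump_nonneg _ _))
    rw [abs_of_nonneg h0]
    exact le_of_tendsto t (h x hx hxr)

end

end Vale.Agent.P145.Top
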