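import Vale.Agent.P145.Top.Key4
import Vale.Agent.P145.Top.Zm

/-!
`Inputs` imply `S_key`, modulo three lemmas on test functions.
-/

namespace Vale.Agent.P145.Top

open Filter Topology Set MeasureTheory
open Vale.Agent.P145.PT Vale.Agent.P145.FP Vale.Agent.P145.Dom

/-- A test function is a finite sum of test functions in small cells. -/
def S_cells : Prop := ∀ {D : Set (ℝ × ℝ)}, IsOpen D → ∀ {ψ : ℝ × ℝ → ℝ}, TestOn D ψ →
  ∃ (m : ℕ) (g : Fin m → ℝ × ℝ → ℝ) (a b a' b' : Fin m → ℝ),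
    (∀ i, a i < b i ∧ a' i < b' i ∧ ccell (a i) (b i) (a' i) (b' i) ⊆ D ∧
      TestOn (cell (a i) (b i) (a' i) (b' i)) (g i)) ∧ ∀ z, ψ z = ∑ i, g i z

/-- A test function is dominated by a nonnegative one with almost the same `L²` norm. -/
def S_dom : Prop := ∀ {D : Set (ℝ × ℝ)}, IsOpen D → Bornology.IsBounded D →
  ∀ {f : ℝ × ℝ → ℝ}, TestOn D f → ∀ {ε : ℝ}, 0 < ε → ∃ g : ℝ × ℝ → ℝ, TestOn D g ∧
    (∀ z, |f z| ≤ g z) ∧ ∫ z, g z ^ 2 ≤ (∫ z, f z ^ 2) + ε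

/-- A nonnegative test function which is at least one on a ball. -/
def S_big : Prop := ∀ {R : ℝ}, 0 < R → ∃ f0 : ℝ × ℝ → ℝ,
  TestOn (Metric.ball (0 : ℝ × ℝ) (2 * R)) f0 ∧ (∀ z, 0 ≤ f0 z) ∧
    ∀ z ∈ Metric.ball (0 : ℝ × ℝ) R, 1 ≤ f0 z

/-- Decomposition of a test function. -/
def S_pp : Prop := ∀ {D : Set (ℝ × ℝ)}, IsOpen D → Bornology.IsBounded D →
  ∀ {f : ℝ × ℝ → ℝ}, TestOn D f → ∀ {R : ℝ} {f0 : ℝ × ℝ → ℝ},
    D ⊆ Metric.ball (0 : ℝ × ℝ) R → (∀ z, 0 ≤ f0 z) →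
    (∀ z ∈ Metric.ball (0 : ℝ × ℝ) R, 1 ≤ f0 z) → ∃ (p m : ℝ × ℝ → ℝ) (C : ℝ), 0 ≤ C ∧
      TestOn D p ∧ TestOn D m ∧ (∀ z, 0 ≤ p z ∧ p z ≤ C * f0 z) ∧
      (∀ z, 0 ≤ m z ∧ m z ≤ C * f0 z) ∧ ∀ z, f z = p z - m z

section

variable {c κ : ℝ} {δ : ℕ → ℝ} {R : ℝ} {B : ℕ → Finset (ℤ × ℤ)} {f0 : ℝ × ℝ → ℝ}
  {μ : ℕ → Set (ℝ × ℝ) → Measure Om}

theorem Setup.fix (S : Setup c κ δ R B f0 μ) (hcells : S_cells) (hdom : S_dom) (hpp : S_pp)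
    {a b : ℝ} {D : ℝ → Set (ℝ × ℝ)}
    (hN : Nest a b D) (hR : ∀ s ∈ Ioo a b, D s ⊆ Metric.ball 0 R) {U : Ultrafilter ℕ}
    (hU : (U : Filter ℕ) ≤ atTop) {s : ℝ} (hs : s ∈ Ioo a b) (hG : Good δ B f0 μ a b D U s) :
    Fix κ δ B (fun n => μ n (D s)) (D s) U where
  κpos := S.inp.κpos
  op := hN.op s hs
  bdd := hN.bdd s hs
  pos := fun n => S.pos n _
  mean := fun n u => S.mean n _ u
  mb := by
    intro f hf hf0 k
    obtain ⟨C, hC⟩ := S.bdd_pow (hN.op s hs) (hR s hs) hf.cs hf.sm (S.supp (hR s hs) hf) hf0 k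
    exact ⟨C, hU hC⟩
  l2 := by
    obtain ⟨C, hC0, hC⟩ := S.l2 hdom
    exact ⟨C, hC0, fun f hf ε hε => hU (hC (D s) (hN.op s hs) (hR s hs) f hf ε hε)⟩
  dec := by
    intro f hf hf0 k ε hε
    obtain ⟨r, hr, h⟩ := S.inp.dec (D s) (hN.op s hs) (hN.bdd s hs) (hN.thick s hs) f hf hf0 k ε hε
    refine ⟨r, hr, fun x hx hxr => ?_⟩
    filter_upwards [hU (h x hx hxr)] with n hn
    rw [← S.ee n (D s) (fun ω => hv (δ n) (bump (dd (D s) x / 2) x) ω * hv (δ n) f ω ^ k)] at hn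
    refine le_trans (le_of_eq ?_) hn
    congr 1
    funext ω
    rw [S.hvB n f (S.supp (hR s hs) hf) ω,
      S.hvB n _ (S.supp (hR s hs) (bump_test' (hN.op s hs) (hN.bdd s hs) hx)) ω]
  sd := by
    intro ψ f hψ hf hf0 k
    obtain ⟨m, g, x, y, x', y', hg, hsum⟩ := hcells (hN.op s hs) hψ
    have e : ψ = fun z => ∑ i, g i z := funext hsum
    have h1 : ∀ i, Tendsto (fun n => sdE κ (B n) (δ n) (μ n (D s)) (g i) f k) U (𝓝 0) := by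
      intro i
      obtain ⟨h1, h2, h3, h4⟩ := hg i
      rw [Metric.tendsto_nhds]
      intro ε hε
      have := S.sd_cell (fun hD hb _ hf hR' => hpp hD hb hf hR' S.f00 S.f01) hN hR hU hs hG
        h1 h2 h3 h4 hf hf0 k (half_pos hε)
      filter_upwards [this] with n hn
      rw [Real.dist_eq, sub_zero]
      linarith
    have h2 : Tendsto (fun n => ∑ i, sdE κ (B n) (δ n) (μ n (D s)) (g i) f k) U
        (𝓝 (∑ _i : Fin m, (0 : ℝ))) := tendsto_finsetSum _ fun i _ => h1 i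
    rw [Finset.sum_const_zero] at h2
    refine h2.congr fun n => ?_
    rw [e, sdE_sum (S.pos n _).mom Finset.univ g (D := D s) (fun i _ =>
      (hg i).2.2.2.mono ((cell_sub_ccell _ _ _ _).trans (hg i).2.2.1)) hf.cont k]

end

theorem exists_setup {c κ : ℝ} {δ : ℕ → ℝ} (H : Inputs c κ δ) (hbig : S_big) {R : ℝ}
    (hR : 0 < R) : ∃ (B : ℕ → Finset (ℤ × ℤ)) (f0 : ℝ × ℝ → ℝ) (μ : ℕ → Set (ℝ × ℝ) → Measure Om),
      Setup c κ δ R B f0 μ := by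
  obtain ⟨f0, h1, h2, h3⟩ := hbig hR
  choose B hB' using fun n => hv_eq_hB (R := 2 * R) (H.δpos n)
  choose μ hμ hμ' using fun (n : ℕ) (D : Set (ℝ × ℝ)) => exists_meas H.cpos (Fs (δ n) D)
  refine ⟨B, f0, μ, ?_⟩
  refine ⟨H, hR, fun n D => ⟨hμ n D, fun v => ?_⟩, fun n D A => hμ' n D A,
    fun n D D' hDD hD' v => ?_, fun n D u => ?_, h1, h2, h3, fun n f hf ω => hB' n f hf ω⟩
  · rw [hμ']
    exact (H.mono _ _ (Finset.Subset.refl (Fs (δ n) D)) v).1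
  · rw [hμ', hμ']
    exact (H.mono _ _ (Fs_mono (H.δpos n) hDD (Metric.isBounded_ball.subset hD')) v).2.1
  · rw [hμ']
    exact (H.mono _ _ (Finset.Subset.refl (Fs (δ n) D)) []).2.2 u

theorem key_of {c κ : ℝ} {δ : ℕ → ℝ} (H : Inputs c κ δ) (hcells : S_cells) (hdom : S_dom)
    (hbig : S_big) (hpp : S_pp) : S_key c κ δ := by
  rintro a b D hN ⟨R, hR⟩ U hU
  set R' : ℝ := max R 1 with hR'
  have hR'0 : 0 < R' := lt_of_lt_of_le one_pos (le_max_right _ _)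
  have hRR : ∀ s ∈ Ioo a b, D s ⊆ Metric.ball 0 R' := fun s hs =>
    (hR s hs).trans (Metric.ball_subset_ball (le_max_left _ _))
  obtain ⟨B, f0, μ, S⟩ := exists_setup H hbig hR'0
  obtain ⟨s, hs, hG⟩ := S.exists_good hN hRR hU
  refine ⟨s, hs, fun f hf hf0 k => ?_⟩
  have F := S.fix hcells hdom hpp hN hRR hU hs hG
  refine (F.gauss hf hf0 k).congr fun n => ?_
  rw [← S.ee n (D s) (fun ω => hv (δ n) f ω ^ k)]
  congr 1
  funext ω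
  rw [S.hvB n f (S.supp (hRR s hs) hf) ω]

end Vale.Agent.P145.Top
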