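import Vale.Agent.P145.Top.Fam
import Vale.Agent.P145.Top.Interp
import Vale.Agent.P145.Dom.Vec
import Vale.Agent.P145.Dom.BridgeC

/-!
The squeeze: from the Gaussian moments for nonnegative test functions in the families of
thickened polyominoes to all moments of signed test functions in the polygons.
-/

namespace Vale.Agent.P145.Top

open Filter Topology Set MeasureTheory
open Vale.Agent.P145.PT Vale.Agent.P145.FP Vale.Agent.P145.Dom

/-! Linearity of `ze`. -/

theorem zs_eq_sum (c : ℝ) (F : Finset (ℤ × ℤ)) (Φ : (Site → ℤ) → ℝ) :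
    zs c F Φ = ∑ x ∈ (ZH_finite F).toFinset, zw c F x * Φ x := by
  unfold zs
  exact finsum_mem_eq_finite_toFinset_sum _ (ZH_finite F)

theorem ze_add' (c : ℝ) (F : Finset (ℤ × ℤ)) (Φ Ψ : (Site → ℤ) → ℝ) :
    ze c F (fun x => Φ x + Ψ x) = ze c F Φ + ze c F Ψ := by
  unfold ze
  rw [← add_div]
  congr 1
  rw [zs_eq_sum, zs_eq_sum, zs_eq_sum, ← Finset.sum_add_distrib]
  exact Finset.sum_congr rfl fun x _ => by ring

theorem ze_smul' (c : ℝ) (F : Finset (ℤ × ℤ)) (a : ℝ) (Φ : (Site → ℤ) → ℝ) :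
    ze c F (fun x => a * Φ x) = a * ze c F Φ := by
  unfold ze
  rw [← mul_div_assoc]
  congr 1
  rw [zs_eq_sum, zs_eq_sum, Finset.mul_sum]
  exact Finset.sum_congr rfl fun x _ => by ring

theorem ze_zero' (c : ℝ) (F : Finset (ℤ × ℤ)) : ze c F (fun _ => 0) = 0 := by
  have := ze_smul' c F 0 (fun _ => 0)
  simpa using this

theorem ze_sum' (c : ℝ) (F : Finset (ℤ × ℤ)) {ι : Type*} (s : Finset ι)
    (Φ : ι → (Site → ℤ) → ℝ) :
    ze c F (fun x => ∑ i ∈ s, Φ i x) = ∑ i ∈ s, ze c F (Φ i) := by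
  classical
  induction s using Finset.induction_on with
  | empty => simpa using ze_zero' c F
  | insert a s ha ih =>
    rw [Finset.sum_insert ha, ← ih, ← ze_add']
    congr 1; funext x; rw [Finset.sum_insert ha]

theorem ze_congr' (c : ℝ) (F : Finset (ℤ × ℤ)) {Φ Ψ : (Site → ℤ) → ℝ}
    (h : ∀ x ∈ ZH F, Φ x = Ψ x) : ze c F Φ = ze c F Ψ := by
  unfold ze
  congr 1
  rw [zs_eq_sum, zs_eq_sum]
  refine Finset.sum_congr rfl fun x hx => ?_
  rw [h x ((ZH_finite F).mem_toFinset.1 hx)]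

/-- Functions in the cone have monotone expectations. -/
theorem cone_ze_mono {c : ℝ} (hm : S_mono c) {F F' : Finset (ℤ × ℤ)} (hF : F ⊆ F') {g : Om → ℝ}
    (hg : Cone g) : ze c F (fun x => g (vh x)) ≤ ze c F' (fun x => g (vh x)) := by
  induction hg with
  | mon l => exact (hm F F' hF l).2.1
  | zero => rw [ze_zero', ze_zero']
  | add _ _ h1 h2 => rw [ze_add', ze_add']; exact add_le_add h1 h2
  | smul a ha _ h1 => rw [ze_smul', ze_smul']; exact mul_le_mul_of_nonneg_left h1 ha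

/-- `(a + b)^k ± (a - b)^k` is in the cone. -/
theorem cone_pm {B : Finset (ℤ × ℤ)} {δ : ℝ} {p m : ℝ × ℝ → ℝ} (hp : ∀ z, 0 ≤ p z)
    (hm : ∀ z, 0 ≤ m z) (k : ℕ) :
    Cone (fun ω => (hB B δ p ω + hB B δ m ω) ^ k + (hB B δ p ω - hB B δ m ω) ^ k) ∧
    Cone (fun ω => (hB B δ p ω + hB B δ m ω) ^ k - (hB B δ p ω - hB B δ m ω) ^ k) := by
  induction k with
  | zero =>
    refine ⟨((Pol.one (P := fun c => 0 ≤ c)).add Pol.one).of_eq fun ω => by simp,
      Pol.zero.of_eq fun ω => by simp⟩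
  | succ k ih =>
    refine ⟨((Cone.hB (B := B) (δ := δ) ih.1 hp).add (Cone.hB (B := B) (δ := δ) ih.2 hm)).of_eq
      fun ω => by ring,
      ((Cone.hB (B := B) (δ := δ) ih.2 hp).add (Cone.hB (B := B) (δ := δ) ih.1 hm)).of_eq
      fun ω => by ring⟩

/-- `hv` is a finite sum. -/
theorem exists_hB {δ : ℝ} (hδ : 0 < δ) {f : ℝ × ℝ → ℝ} (hf : HasCompactSupport f) :
    ∃ B : Finset (ℤ × ℤ), ∀ B', B ⊆ B' → ∀ ω, hv δ f ω = hB B' δ f ω := by
  obtain ⟨R, hR⟩ := hf.isBounded.exists_norm_le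
  have hfin : {v : ℤ × ℤ | f (δ * v.1, δ * v.2) ≠ 0}.Finite := by
    refine ((finite_Icc (-⌈R / δ⌉) ⌈R / δ⌉).prod (finite_Icc (-⌈R / δ⌉) ⌈R / δ⌉)).subset ?_
    rintro v hv
    have h0 := hR _ (subset_tsupport f hv)
    have h1 := (norm_fst_le _).trans h0
    have h2 := (norm_snd_le _).trans h0
    simp only [Real.norm_eq_abs, abs_mul, abs_of_pos hδ] at h1 h2
    have key : ∀ m : ℤ, δ * |(m : ℝ)| ≤ R → m ∈ Icc (-⌈R / δ⌉) ⌈R / δ⌉ := by
      intro m hm
      have h3 : |(m : ℝ)| ≤ R / δ := by rw [le_div_iff₀ hδ]; linarith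
      have h4 : |(m : ℝ)| ≤ (⌈R / δ⌉ : ℤ) := h3.trans (Int.le_ceil _)
      rw [abs_le] at h4
      exact ⟨by exact_mod_cast h4.1, by exact_mod_cast h4.2⟩
    exact ⟨key _ h1, key _ h2⟩
  refine ⟨hfin.toFinset, fun B' hB' ω => ?_⟩
  unfold hv hB
  congr 1
  refine finsum_eq_sum_of_support_subset _ fun v hv => ?_
  refine hB' (hfin.mem_toFinset.2 ?_)
  intro h
  refine hv ?_
  change ω v * f (δ * v.1, δ * v.2) = 0
  rw [h, mul_zero]

theorem hv_add {δ : ℝ} (hδ : 0 < δ) {f g : ℝ × ℝ → ℝ} (hf : HasCompactSupport f)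
    (hg : HasCompactSupport g) (a b : ℝ) (ω : Om) :
    hv δ (fun z => a * f z + b * g z) ω = a * hv δ f ω + b * hv δ g ω := by
  classical
  have k1 : HasCompactSupport (fun z => a * f z) := by
    have h := hf.comp_left (g := fun t : ℝ => a * t) (mul_zero a)
    exact h
  have k2 : HasCompactSupport (fun z => b * g z) := by
    have h := hg.comp_left (g := fun t : ℝ => b * t) (mul_zero b)
    exact h
  have hfg : HasCompactSupport (fun z => a * f z + b * g z) := k1.add k2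
  obtain ⟨B1, h1⟩ := exists_hB hδ hf
  obtain ⟨B2, h2⟩ := exists_hB hδ hg
  obtain ⟨B3, h3⟩ := exists_hB hδ hfg
  set B := B1 ∪ (B2 ∪ B3)
  rw [h1 B Finset.subset_union_left, h2 B (Finset.subset_union_left.trans
    Finset.subset_union_right), h3 B (Finset.subset_union_right.trans Finset.subset_union_right),
    hB_add, hB_smul, hB_smul]

/-- The comparison of moments of signed functions. -/
theorem squeeze_fin {c : ℝ} (hm : S_mono c) {δ : ℝ} (hδ : 0 < δ) {p m : ℝ × ℝ → ℝ}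
    (hp : HasCompactSupport p) (hmc : HasCompactSupport m) (hp0 : ∀ z, 0 ≤ p z)
    (hm0 : ∀ z, 0 ≤ m z) {F0 F F1 : Finset (ℤ × ℤ)} (h0 : F0 ⊆ F) (h1 : F ⊆ F1) (k : ℕ) :
    |ze c F (fun x => (hv δ p (vh x) - hv δ m (vh x)) ^ k)
        - ze c F0 (fun x => (hv δ p (vh x) - hv δ m (vh x)) ^ k)|
      ≤ ze c F1 (fun x => (hv δ p (vh x) + hv δ m (vh x)) ^ k)
        - ze c F0 (fun x => (hv δ p (vh x) + hv δ m (vh x)) ^ k) := by
  classical
  obtain ⟨B1, hB1⟩ := exists_hB hδ hp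
  obtain ⟨B2, hB2⟩ := exists_hB hδ hmc
  set B := B1 ∪ B2
  have e1 : ∀ ω, hv δ p ω = hB B δ p ω := hB1 B Finset.subset_union_left
  have e2 : ∀ ω, hv δ m ω = hB B δ m ω := hB2 B Finset.subset_union_right
  simp_rw [e1, e2]
  obtain ⟨cp, cm⟩ := cone_pm (B := B) (δ := δ) hp0 hm0 k
  have cs : Cone (fun ω => (hB B δ p ω + hB B δ m ω) ^ k) := by
    refine (((cp.add cm).smul (1 / 2) (by norm_num))).of_eq fun ω => by ring
  set A : Finset (ℤ × ℤ) → ℝ := fun F => ze c F (fun x => (hB B δ p (vh x) + hB B δ m (vh x)) ^ k)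
  set A' : Finset (ℤ × ℤ) → ℝ := fun F => ze c F (fun x => (hB B δ p (vh x) - hB B δ m (vh x)) ^ k)
  have hpl : ∀ F, ze c F (fun x => (hB B δ p (vh x) + hB B δ m (vh x)) ^ k
      + (hB B δ p (vh x) - hB B δ m (vh x)) ^ k) = A F + A' F := fun F => ze_add' c F _ _
  have hmi : ∀ F, ze c F (fun x => (hB B δ p (vh x) + hB B δ m (vh x)) ^ k
      - (hB B δ p (vh x) - hB B δ m (vh x)) ^ k) = A F - A' F := fun F => by
    have h := ze_add' c F (fun x => (hB B δ p (vh x) + hB B δ m (vh x)) ^ k)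
      (fun x => (-1) * (hB B δ p (vh x) - hB B δ m (vh x)) ^ k)
    rw [ze_smul'] at h
    have h' : (fun x => (hB B δ p (vh x) + hB B δ m (vh x)) ^ k
      - (hB B δ p (vh x) - hB B δ m (vh x)) ^ k) = fun x =>
      (hB B δ p (vh x) + hB B δ m (vh x)) ^ k
      + (-1) * (hB B δ p (vh x) - hB B δ m (vh x)) ^ k := by funext x; ring
    rw [h', h]; ring
  have a1 := cone_ze_mono hm h0 cp
  have a2 := cone_ze_mono hm h0 cm
  have a3 := cone_ze_mono hm h1 cs
  rw [hpl, hpl] at a1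
  rw [hmi, hmi] at a2
  have a3' : A F ≤ A F1 := a3
  change |A' F - A' F0| ≤ A F1 - A F0
  rw [abs_le]
  constructor <;> linarith

/-- The sum over the vertices of `F` and the sum over all vertices. -/
theorem zf_eq_hv {F : Finset (ℤ × ℤ)} {δ : ℝ} {f : ℝ × ℝ → ℝ} {x : Site → ℤ} (hx : x ∈ ZH F) :
    zf F δ f x = hv δ f (vh x) := by
  unfold zf fldD hv
  congr 1
  symm
  refine finsum_eq_sum_of_support_subset _ fun v hv => ?_
  by_contra hvF
  refine hv ?_
  have hvF' : v ∉ verts F := hvF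
  have h1 : v ∉ F := fun h => hvF' (by unfold verts; simp [h])
  have h2 := (hx.2.2 v 0 0 (Or.inl rfl) (Or.inl rfl)).1 h1
  have h3 : x (Sum.inl v) = 0 := by simpa using h2
  change vh x v * f (δ * v.1, δ * v.2) = 0
  unfold vh
  rw [h3]; simp

/-- Quadratic dependence of `V` on the coefficient. -/
theorem V_quad {D : Set (ℝ × ℝ)} (hD : Bornology.IsBounded D) {p m : ℝ × ℝ → ℝ}
    (hp : TestOn D p) (hm : TestOn D m) : ∃ β : ℝ, ∀ a : ℝ,
    V D (fun z => 1 * p z + a * m z) = V D p + β * a + V D m * a ^ 2 := by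
  have hφ : ∀ j : Fin 2, TestOn D ((![p, m] : Fin 2 → ℝ × ℝ → ℝ) j) := by
    intro j; fin_cases j
    · exact hp
    · exact hm
  have key := V_sum hD hφ
  have h0 : V D p = dirCov D p p := by
    have h := key ![1, 0]
    simp [Fin.sum_univ_two] at h
    exact h
  have h1 : V D m = dirCov D m m := by
    have h := key ![0, 1]
    simp [Fin.sum_univ_two] at h
    exact h
  refine ⟨dirCov D p m + dirCov D m p, fun a => ?_⟩
  have h := key ![1, a]
  simp only [Fin.sum_univ_two, Matrix.cons_val_zero, Matrix.cons_val_one] at h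
  rw [h, h0, h1]
  simp
  ring

/-- Signed test functions. -/
theorem signed {c κ : ℝ} {δ : ℕ → ℝ} (hδ : ∀ n, 0 < δ n) {D : Set (ℝ × ℝ)}
    (hb : Bornology.IsBounded D) {U : Filter ℕ}
    (h : ∀ f : ℝ × ℝ → ℝ, TestOn D f → (∀ z, 0 ≤ f z) → ∀ k : ℕ,
      Tendsto (fun n => EE c (δ n) D (fun ω => hv (δ n) f ω ^ k)) U (𝓝 (gm (κ * V D f) k)))
    {p m : ℝ × ℝ → ℝ} (hp : TestOn D p) (hm : TestOn D m) (hp0 : ∀ z, 0 ≤ p z)
    (hm0 : ∀ z, 0 ≤ m z) (k : ℕ) :
    Tendsto (fun n => EE c (δ n) D (fun ω => (hv (δ n) p ω - hv (δ n) m ω) ^ k)) U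
      (𝓝 (gm (κ * V D (fun z => p z - m z)) k)) := by
  obtain ⟨β, hβ⟩ := V_quad hb hp hm
  set b : ℕ → ℕ → ℝ := fun n j => ze c (Fs (δ n) D)
    (fun x => hv (δ n) m (vh x) ^ j * hv (δ n) p (vh x) ^ (k - j)) with hbd
  have hexp : ∀ (a : ℝ) n, EE c (δ n) D (fun ω => (hv (δ n) p ω + a * hv (δ n) m ω) ^ k)
      = ∑ j ∈ Finset.range (k + 1), (k.choose j : ℝ) * a ^ j * b n j := by
    intro a n
    unfold EE
    have h1 : ∀ x : Site → ℤ, (hv (δ n) p (vh x) + a * hv (δ n) m (vh x)) ^ k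
        = ∑ j ∈ Finset.range (k + 1), ((k.choose j : ℝ) * a ^ j) *
          (hv (δ n) m (vh x) ^ j * hv (δ n) p (vh x) ^ (k - j)) := by
      intro x
      rw [add_comm, add_pow]
      refine Finset.sum_congr rfl fun j _ => ?_
      rw [mul_pow]; ring
    simp_rw [h1]
    rw [ze_sum']
    refine Finset.sum_congr rfl fun j _ => ?_
    rw [ze_smul']
  have key := tendsto_neg_one (l := U) k b (κ * V D p) (κ * β) (κ * V D m) (fun i hi => by
    have h2 := h (fun z => 1 * p z + (i : ℝ) * m z) ((hp.smul 1).add (hm.smul i))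
      (fun z => add_nonneg (by rw [one_mul]; exact hp0 z)
        (mul_nonneg (Nat.cast_nonneg i) (hm0 z))) k
    rw [hβ] at h2
    have e1 : κ * (V D p + β * (i : ℝ) + V D m * (i : ℝ) ^ 2)
        = κ * V D p + κ * β * i + κ * V D m * (i : ℝ) ^ 2 := by ring
    rw [e1] at h2
    refine h2.congr fun n => ?_
    rw [← hexp]
    congr 1; funext ω
    rw [hv_add (hδ n) hp.cs hm.cs, one_mul])
  have e2 : κ * V D p + κ * β * (-1) + κ * V D m * (-1) ^ 2
      = κ * V D (fun z => p z - m z) := by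
    have h3 := hβ (-1)
    have h4 : (fun z => 1 * p z + (-1) * m z) = fun z => p z - m z := by funext z; ring
    rw [h4] at h3
    rw [h3]; ring
  rw [e2] at key
  refine key.congr fun n => ?_
  rw [← hexp]
  congr 1; funext ω
  ring

theorem gm_cont (k : ℕ) : Continuous (fun v => gm v k) ∧ Continuous (fun v => gm v (k + 1)) := by
  induction k with
  | zero => exact ⟨continuous_const, continuous_const⟩
  | succ k ih =>
    refine ⟨ih.2, ?_⟩
    have : (fun v : ℝ => gm v (k + 1 + 1)) = fun v => ((k : ℝ) + 1) * v * gm v k := by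
      funext v; rfl
    rw [this]
    exact (continuous_const.mul continuous_id).mul ih.1

/-- **The squeeze.** -/
theorem squeeze {c κ : ℝ} {δ : ℕ → ℝ} (hm : S_mono c) (hδ : ∀ n, 0 < δ n)
    (hkey : S_key c κ δ) {D : Set (ℝ × ℝ)} (hJ : JordanDomain D) {F : ℕ → Finset (ℤ × ℤ)}
    (hin : ∀ D' : Set (ℝ × ℝ), IsOpen D' → Bornology.IsBounded D' → closure D' ⊆ D →
      ∀ᶠ n in atTop, Fs (δ n) D' ⊆ F n)
    (hout : ∀ D' : Set (ℝ × ℝ), IsOpen D' → Bornology.IsBounded D' → closure D ⊆ D' →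
      ∀ᶠ n in atTop, F n ⊆ Fs (δ n) D')
    {φ : ℝ × ℝ → ℝ} (hφ : TestOn D φ) (k : ℕ) :
    Tendsto (fun n => ze c (F n) (fun x => zf (F n) (δ n) φ x ^ k)) atTop
      (𝓝 (gm (κ * V D φ) k)) := by
  have hop : IsOpen D := hJ.isOpen
  have hb : Bornology.IsBounded D := hJ.isBounded
  obtain ⟨Φ, hΦ⟩ := hJ
  have hdisc : D = Φ '' disc := hΦ
  rw [tendsto_iff_ultrafilter]
  intro U hU
  obtain ⟨p, m, hp, hm', hp0, hm0, hpm⟩ := exists_decomp hop hb hφ
  have hφe : φ = fun z => p z - m z := funext hpm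
  set ψ : ℝ × ℝ → ℝ := fun z => p z + m z with hψ
  have hψT : TestOn D ψ := hp.add hm'
  have hψ0 : ∀ z, 0 ≤ ψ z := fun z => add_nonneg (hp0 z) (hm0 z)
  rw [Metric.tendsto_nhds]
  intro ε hε
  -- continuity of the Gaussian moments
  obtain ⟨η1, hη1, hc1⟩ := Metric.continuous_iff.1
    ((gm_cont k).1.comp (continuous_const.mul continuous_id : Continuous fun v : ℝ => κ * v))
    (V D ψ) (ε / 8) (by positivity)
  obtain ⟨η2, hη2, hc2⟩ := Metric.continuous_iff.1
    ((gm_cont k).1.comp (continuous_const.mul continuous_id : Continuous fun v : ℝ => κ * v))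
    (V D φ) (ε / 4) (by positivity)
  set η : ℝ := min η1 η2 / 2 with hη
  have hη0 : 0 < η := by have := lt_min hη1 hη2; positivity
  have hηη1 : η < η1 := by
    have := lt_min hη1 hη2
    have h2 := min_le_left η1 η2
    linarith
  have hηη2 : η < η2 := by
    have := lt_min hη1 hη2
    have h2 := min_le_right η1 η2
    linarith
  -- inner and outer scales
  obtain ⟨s1, hs1, hV1⟩ := inner_stab hop hb hψT hη0
  obtain ⟨s2, hs2, hV2⟩ := inner_stab hop hb hφ hη0
  obtain ⟨s3, hs3, hT3⟩ := hp.inner hop hb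
  obtain ⟨s4, hs4, hT4⟩ := hm'.inner hop hb
  obtain ⟨s5, hs5, hV5⟩ : ∃ s : ℝ, 0 < s ∧ V (Metric.thickening s D) ψ ≤ V D ψ + η := by
    have := jordan_stab Φ (φ := ψ) (by rw [← hdisc]; exact hψT) hψ0 hη0
    rw [← hdisc] at this
    exact this
  set g : ℝ := min (min (min s1 s2) (min s3 s4)) s5 / 4 with hg
  have hmin : 0 < min (min (min s1 s2) (min s3 s4)) s5 :=
    lt_min (lt_min (lt_min hs1 hs2) (lt_min hs3 hs4)) hs5
  have hg0 : 0 < g := by positivity
  have hg1 : 4 * g ≤ s1 := by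
    have : min (min (min s1 s2) (min s3 s4)) s5 ≤ s1 :=
      (min_le_left _ _).trans ((min_le_left _ _).trans (min_le_left _ _))
    linarith
  have hg2 : 4 * g ≤ s2 := by
    have : min (min (min s1 s2) (min s3 s4)) s5 ≤ s2 :=
      (min_le_left _ _).trans ((min_le_left _ _).trans (min_le_right _ _))
    linarith
  have hg3 : 4 * g ≤ s3 := by
    have : min (min (min s1 s2) (min s3 s4)) s5 ≤ s3 :=
      (min_le_left _ _).trans ((min_le_right _ _).trans (min_le_left _ _))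
    linarith
  have hg4 : 4 * g ≤ s4 := by
    have : min (min (min s1 s2) (min s3 s4)) s5 ≤ s4 :=
      (min_le_left _ _).trans ((min_le_right _ _).trans (min_le_right _ _))
    linarith
  have hg5 : 4 * g ≤ s5 := by
    have : min (min (min s1 s2) (min s3 s4)) s5 ≤ s5 := min_le_right _ _
    linarith
  -- the families
  have hSo : (Sout g D).Finite := Sout_finite hg0 hb
  have hSi : (Sin g D).Finite := by
    refine hSo.subset fun q hq => ?_
    have hz : ((g * q.1, g * q.2) : ℝ × ℝ) ∈ gsq g q := by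
      refine ⟨le_rfl, ?_, le_rfl, ?_⟩ <;> simp only <;> nlinarith
    have h1 := hq _ hz
    exact ⟨_, hz, (dd_pos hop hb).1 (by linarith)⟩
  obtain ⟨so, hso, hGo⟩ := hkey 0 (g / 4) _ (nest_gun hg0 hSo) (gun_ball hSo) U hU
  obtain ⟨si, hsi, hGi⟩ := hkey 0 (g / 4) _ (nest_gun hg0 hSi) (gun_ball hSi) U hU
  set Do := Metric.thickening so (gun g (Sout g D)) with hDo
  set Di := Metric.thickening si (gun g (Sin g D)) with hDi
  have hDob : Bornology.IsBounded Do := (isCompact_gun hSo).isBounded.thickening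
  have hDib : Bornology.IsBounded Di := (isCompact_gun hSi).isBounded.thickening
  have hDDo : closure D ⊆ Do := by
    refine (closure_minimal (subset_gun_Sout hg0 D) (isCompact_gun hSo).isClosed).trans ?_
    exact Metric.self_subset_thickening hso.1 _
  have hDiD : closure Di ⊆ D := by
    have h1 : Di ⊆ {z | g ≤ dd D z} := fun z hz => by
      have h' := gun_Sin_subset (s := si) (by linarith [hsi.2]) D hz
      have h'' : g < dd D z := h'
      exact h''.le
    have h2 : closure Di ⊆ {z | g ≤ dd D z} :=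
      closure_minimal h1 (isClosed_le continuous_const (dd_cont D))
    intro z hz
    have h3 : g ≤ dd D z := h2 hz
    exact (dd_pos hop hb).1 (by linarith)
  have hDisub : Di ⊆ D := subset_closure.trans hDiD
  have h4g : {z | 4 * g < dd D z} ⊆ Di := (subset_gun_Sin hg0 D).trans
    (Metric.self_subset_thickening hsi.1 _)
  have hpi : TestOn Di p := hT3.mono ((inner_mono hg3).trans h4g)
  have hmi : TestOn Di m := hT4.mono ((inner_mono hg4).trans h4g)
  have hψo : TestOn Do ψ := hψT.mono (subset_closure.trans hDDo)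
  have hψi : TestOn Di ψ := hpi.add hmi
  -- values of V
  have v1 : V D ψ - η ≤ V Di ψ := by
    have h1 := V_mono hDib ((inner_mono hg1).trans h4g) hψT
    linarith
  have v2 : V Di ψ ≤ V D ψ := V_mono hb hDisub hψT
  have v3 : V D φ - η ≤ V Di φ := by
    have h1 := V_mono hDib ((inner_mono hg2).trans h4g) hφ
    linarith
  have v4 : V Di φ ≤ V D φ := V_mono hb hDisub hφ
  have v5 : V Do ψ ≤ V D ψ + η := by
    have h1 : Do ⊆ Metric.thickening s5 D :=
      (gun_Sout_subset (s := so) (by linarith [hso.2]) D).trans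
        (Metric.thickening_mono (by linarith) D)
    exact (V_mono hb.thickening h1 hψT).trans hV5
  have v6 : V D ψ ≤ V Do ψ := V_mono hDob (subset_closure.trans hDDo) hψT
  have w1 : dist (gm (κ * V Di ψ) k) (gm (κ * V D ψ) k) < ε / 8 :=
    hc1 _ (by rw [Real.dist_eq, abs_lt]; constructor <;> linarith)
  have w2 : dist (gm (κ * V Do ψ) k) (gm (κ * V D ψ) k) < ε / 8 :=
    hc1 _ (by rw [Real.dist_eq, abs_lt]; constructor <;> linarith)
  have w3 : dist (gm (κ * V Di φ) k) (gm (κ * V D φ) k) < ε / 4 :=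
    hc2 _ (by rw [Real.dist_eq, abs_lt]; constructor <;> linarith)
  -- the limits
  have l1 := signed (κ := κ) hδ hDib hGi hpi hmi hp0 hm0 k
  rw [← hφe] at l1
  have l2 := hGi ψ hψi hψ0 k
  have l3 := hGo ψ hψo hψ0 k
  have n1 : ∀ᶠ n in (U : Filter ℕ), Fs (δ n) Di ⊆ F n :=
    hU (hin Di Metric.isOpen_thickening hDib hDiD)
  have n2 : ∀ᶠ n in (U : Filter ℕ), F n ⊆ Fs (δ n) Do :=
    hU (hout Do Metric.isOpen_thickening hDob hDDo)
  filter_upwards [n1, n2, Metric.tendsto_nhds.1 l1 (ε / 8) (by positivity),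
    Metric.tendsto_nhds.1 l2 (ε / 8) (by positivity),
    Metric.tendsto_nhds.1 l3 (ε / 8) (by positivity)] with n m1 m2 d1 d2 d3
  have sq := squeeze_fin hm (hδ n) hp.cs hm'.cs hp0 hm0 m1 m2 k
  have e1 : ze c (F n) (fun x => zf (F n) (δ n) φ x ^ k)
      = ze c (F n) (fun x => (hv (δ n) p (vh x) - hv (δ n) m (vh x)) ^ k) := by
    refine ze_congr' c (F n) fun x hx => ?_
    rw [zf_eq_hv hx]
    congr 1
    have h1 := hv_add (hδ n) hp.cs hm'.cs 1 (-1) (vh x)
    have h2 : (fun z => 1 * p z + (-1) * m z) = φ := by funext z; rw [hpm z]; ring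
    rw [h2] at h1
    rw [h1]; ring
  have e2 : ∀ ω, hv (δ n) ψ ω = hv (δ n) p ω + hv (δ n) m ω := by
    intro ω
    have h1 := hv_add (hδ n) hp.cs hm'.cs 1 1 ω
    have h2 : (fun z => 1 * p z + 1 * m z) = ψ := by funext z; rw [hψ]; ring
    rw [h2] at h1
    rw [h1]; ring
  simp_rw [e2] at d2 d3
  rw [e1]
  unfold EE at d1 d2 d3
  rw [Real.dist_eq] at d1 d2 d3 w1 w2 w3 ⊢
  rw [abs_lt] at d1 d2 d3 w1 w2 w3 ⊢
  rw [abs_le] at sq
  constructor <;> linarith [sq.1, sq.2, d1.1, d1.2, d2.1, d2.2, d3.1, d3.2, w1.1, w1.2, w2.1,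
    w2.2, w3.1, w3.2]

/-- The inner inclusion follows from `Approx`. -/
theorem approx_in {D : Set (ℝ × ℝ)} {δ : ℕ → ℝ} {N : ℕ → ℕ} {p : ∀ n, ZMod (N n) → ℤ × ℤ}
    {F : ℕ → Finset (ℤ × ℤ)} (hA : Approx D δ N p F) (D' : Set (ℝ × ℝ))
    (hb : Bornology.IsBounded D') (hD' : closure D' ⊆ D) :
    ∀ᶠ n in atTop, Fs (δ n) D' ⊆ F n := by
  filter_upwards [hA.cpt (closure D') hD' hb.isCompact_closure] with n hn
  intro f hf
  have hδ := hA.pos n
  have hsub : sq (δ n) f ⊆ D' := by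
    unfold Fs at hf
    split_ifs at hf with h
    · exact h.mem_toFinset.1 hf
    · simp at hf
  have hmem : ((δ n * f.1, δ n * f.2) : ℝ × ℝ) ∈ sq (δ n) f := by
    refine ⟨le_rfl, ?_, le_rfl, ?_⟩ <;> simp only <;> nlinarith
  have := hn _ (subset_closure (hsub hmem))
  have e1 : δ n * (f.1 : ℝ) / δ n = f.1 := by field_simp
  have e2 : δ n * (f.2 : ℝ) / δ n = f.2 := by field_simp
  simp only [e1, e2, Int.floor_intCast] at this
  exact this

end Vale.Agent.P145.Top
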